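import Vale.Agent.P128.H861.Dens

open MeasureTheory Set Metric Filter
open scoped Topology

namespace Vale.Agent.P128.H861

open Vale.Agent.P128

variable {Ω : Set ℂ} {g u : ℂ → ℝ} {G : ℂ → ℂ} {K : Set ℂ} {x : ℂ}

theorem IsRegularPt.fan (h : IsRegularPt Ω K x) : Fan 2 K x := by
  obtain ⟨r, hr, -, α, hα, h⟩ := h
  exact h.fan hr hα

theorem IsTip.fan (h : IsTip Ω K x) : Fan 1 K x := by
  obtain ⟨r, hr, -, α, hα, h⟩ := h
  exact h.fan hr hα

theorem IsTriplePt.fan (h : IsTriplePt Ω K x) : Fan 3 K x := by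
  obtain ⟨r, hr, -, α, hα, h⟩ := h
  exact h.fan hr hα

theorem IsRegularPt.not_tip (h : IsRegularPt Ω K x) : ¬ IsTip Ω K x := fun h' => by
  have := h.fan.star.unique h'.fan.star
  omega

theorem IsRegularPt.not_triple (h : IsRegularPt Ω K x) : ¬ IsTriplePt Ω K x := fun h' => by
  have := h.fan.star.unique h'.fan.star
  omega

theorem IsTip.not_triple (h : IsTip Ω K x) : ¬ IsTriplePt Ω K x := fun h' => by
  have := h.fan.star.unique h'.fan.star
  omega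

/-- the structure at every point gives the structure in compact sets -/
theorem compact_structure (hcl : Ω ∩ closure K ⊆ K)
    (H : ∀ x ∈ K, IsRegularPt Ω K x ∨ IsTip Ω K x ∨ IsTriplePt Ω K x) {C : Set ℂ} (hC : C ⊆ Ω)
    (hCc : IsCompact C) :
    {x ∈ K ∩ C | ¬ IsRegularPt Ω K x}.Finite ∧
      {S | ∃ x ∈ K ∩ C, S = connectedComponentIn K x}.Finite ∧
      ∃ (α : ℝ) (N : ℕ) (γ γ' : Fin N → ℝ → ℂ), 0 < α ∧ (∀ i, IsArc α 0 1 (γ i) (γ' i)) ∧
        (∀ i, γ i '' Icc 0 1 ⊆ K) ∧ K ∩ C ⊆ ⋃ i, γ i '' Icc 0 1 ∧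
        (∀ i j, i ≠ j → γ i '' Icc 0 1 ∩ γ j '' Icc 0 1 ⊆ {γ i 0, γ i 1} ∩ {γ j 0, γ j 1}) ∧
        ∀ i, ∀ t ∈ Ioo (0 : ℝ) 1, IsRegularPt Ω K (γ i t) := by
  have hfan : ∀ x ∈ K, ∃ m, Fan m K x := by
    intro x hx
    rcases H x hx with h | h | h
    · exact ⟨2, h.fan⟩
    · exact ⟨1, h.fan⟩
    · exact ⟨3, h.fan⟩
  have hreg : ∀ x ∈ K, Star 2 K x → IsRegularPt Ω K x := by
    intro x hx hs
    rcases H x hx with h | h | h
    · exact h
    · have := hs.unique h.fan.star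
      omega
    · have := hs.unique h.fan.star
      omega
  have hD : IsCompact (K ∩ C) := by
    have e1 : K ∩ C = closure K ∩ C := by
      ext z
      exact ⟨fun h => ⟨subset_closure h.1, h.2⟩, fun h => ⟨hcl ⟨hC h.2, h.1⟩, h.2⟩⟩
    rw [e1]
    exact hCc.inter_left isClosed_closure
  obtain ⟨α, N, γ, γ', h1, h2, h3, h4, h5, h6⟩ := exists_graph hD inter_subset_left
    fun x hx => hfan x hx.1
  refine ⟨?_, ?_, α, N, γ, γ', h1, h2, h3, h4, h5, fun i t ht =>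
    hreg _ (h3 i ⟨t, Ioo_subset_Icc_self ht, rfl⟩) (h6 i t ht)⟩
  · by_contra hinf
    obtain ⟨x, hx, hacc⟩ := Set.Infinite.exists_accPt_of_subset_isCompact hinf hD
      fun z hz => hz.1
    obtain ⟨m, hm⟩ := hfan x hx.1
    rw [accPt_iff_frequently_nhdsNE] at hacc
    obtain ⟨z, hz, hz'⟩ := (hacc.and_eventually hm.punctured).exists
    exact hz.2 (hreg z hz.1.1 (hz' hz.1.1))
  · refine (finite_range fun i : Fin N => connectedComponentIn K (γ i 0)).subset ?_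
    rintro _ ⟨x, hx, rfl⟩
    obtain ⟨i, t, ht, hti⟩ := mem_iUnion.1 (h4 hx)
    refine ⟨i, ?_⟩
    have hpre : IsPreconnected (γ i '' Icc 0 1) :=
      isPreconnected_Icc.image _ (h2 i).continuousOn
    have h0 : γ i 0 ∈ γ i '' Icc 0 1 := ⟨0, ⟨le_rfl, zero_le_one⟩, rfl⟩
    have hx' : x ∈ connectedComponentIn K (γ i 0) :=
      hpre.subset_connectedComponentIn h0 (h3 i) ⟨t, ht, hti⟩
    exact connectedComponentIn_eq hx'

end Vale.Agent.P128.H861
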