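import Vale.Agent.P128.H861.Unif4
import Vale.Agent.P128.H861.Main

/-! Uniform separation of the singular points. -/

open MeasureTheory Set Metric Filter InnerProductSpace
open scoped ENNReal NNReal ContDiff Topology Real

namespace Vale.Agent.P128.Q1

open Vale.Agent.P128

variable {Ω : Set ℂ} {g u : ℂ → ℝ} {G : ℂ → ℂ} {K : Set ℂ} {M : ℝ} {x₀ : ℂ} {R₀ : ℝ}
  {ρ : ℝ → ℝ → ℝ}

theorem ACl.line_of_mid (h : ACl ρ G K x₀ R₀) (hρ : ∀ R ε, 1 ≤ R → 0 < ε → 0 < ρ R ε)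
    (hm : MS Ω g u G K M x₀ R₀) {z : ℂ} (hz : z ∈ K ∩ ball x₀ R₀) {r : ℝ} (hr : 0 < r)
    (hr' : r ≤ ρ 2 (1 / 100)) (hmid : Mid K z r) : LineType G K z := by
  obtain ⟨r₀, hr₀, h1⟩ := (h.allClose hρ).lineType hm
  have h2 := h.mid_down z ⟨hz.1, ball_subset_closedBall hz.2⟩ r hr hr' hmid
  obtain ⟨k, hk⟩ := types_pow (r := r₀) (s := r) hr₀
  refine h1 z hz (r / 2 ^ k) (by positivity) ?_ (h2 k)
  rw [div_le_iff₀ (by positivity)]
  linarith

/-- Two points which are not of line type are far from each other. -/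
theorem sep_unif (M R₀ : ℝ) : ∃ s : ℝ, 0 < s ∧
    ∀ (Ω : Set ℂ) (g u : ℂ → ℝ) (G : ℂ → ℂ) (K : Set ℂ) (x₀ : ℂ), MS Ω g u G K M x₀ R₀ →
      ∀ x ∈ K ∩ ball x₀ R₀, ∀ y ∈ K ∩ ball x₀ R₀, y ≠ x → ¬ LineType G K x →
        ¬ LineType G K y → s ≤ dist y x := by
  obtain ⟨ρ, hρ, H⟩ := exists_ACl M R₀
  obtain ⟨δ, hδ⟩ : ∃ δ : ℝ, δ = 1 / 10000 := ⟨_, rfl⟩
  have hδ0 : 0 < δ := by rw [hδ]; norm_num
  obtain ⟨a, ha⟩ : ∃ a, a = ρ 2 (1 / 100) := ⟨_, rfl⟩
  obtain ⟨b₁, hb₁⟩ : ∃ b, b = min a (ρ (max 1 (4 / δ))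
    (min (δ / 4) (1 / (100 * max 1 (4 / δ))))) := ⟨_, rfl⟩
  obtain ⟨b₂, hb₂⟩ : ∃ b, b = min (ρ (2 + 4 / δ) (min (δ / 4) (1 / (2 + 4 / δ) / 10))) a :=
    ⟨_, rfl⟩
  obtain ⟨c, hc⟩ : ∃ c, c = ρ 20 (1 / 100) := ⟨_, rfl⟩
  have ha0 : 0 < a := by rw [ha]; exact hρ _ _ (by norm_num) (by norm_num)
  have hc0 : 0 < c := by rw [hc]; exact hρ _ _ (by norm_num) (by norm_num)
  have hb₁0 : 0 < b₁ := by
    rw [hb₁]
    refine lt_min ha0 (hρ _ _ (le_max_left _ _) (lt_min (by positivity) ?_))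
    have : (0 : ℝ) < max 1 (4 / δ) := lt_of_lt_of_le one_pos (le_max_left _ _)
    positivity
  have hb₂0 : 0 < b₂ := by
    rw [hb₂]
    have h4 : 0 < 4 / δ := by positivity
    refine lt_min (hρ _ _ (by linarith) (lt_min (by positivity) (by positivity))) ha0
  refine ⟨min (min (b₁ / 2) (b₂ / 2)) (min c a), lt_min (lt_min (by positivity) (by positivity))
    (lt_min hc0 ha0), ?_⟩
  intro Ω g u G K x₀ h x hx y hy hyx hnx hny
  have hA := H Ω g u G K x₀ h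
  by_contra hlt
  push Not at hlt
  have hd : 0 < dist y x := dist_pos.2 hyx
  have e1 : dist y x ≤ b₁ / 2 := hlt.le.trans ((min_le_left _ _).trans (min_le_left _ _))
  have e2 : dist y x ≤ b₂ / 2 := hlt.le.trans ((min_le_left _ _).trans (min_le_right _ _))
  have e3 : dist y x ≤ c := hlt.le.trans ((min_le_right _ _).trans (min_le_left _ _))
  have e4 : dist y x ≤ a := hlt.le.trans ((min_le_right _ _).trans (min_le_right _ _))
  have hx' : x ∈ K ∩ closedBall x₀ R₀ := ⟨hx.1, ball_subset_closedBall hx.2⟩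
  have hy' : y ∈ K ∩ closedBall x₀ R₀ := ⟨hy.1, ball_subset_closedBall hy.2⟩
  -- `y` is a line point as soon as `K` is close to a line there
  have key : (∃ e : ℂ, ‖e‖ = 1 ∧
      (∀ z ∈ K ∩ closedBall y (dist y x / 2), ∃ t : ℝ, dist z (y + t * e) ≤ dist y x / 1000) ∧
      ∀ t : ℝ, |t| ≤ dist y x / 2 → ∃ z ∈ K, dist z (y + t * e) ≤ dist y x / 1000) → False := by
    intro hl
    have hM := hA.mid_of_line y hy' (dist y x) hd (by rw [← hc]; exact e3) hl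
    exact hny (hA.line_of_mid hρ h hy (by positivity) (by rw [← ha]; linarith) hM)
  have hnm : ∀ r, 0 < r → r ≤ a → ¬ Mid K x r := fun r hr hra hM =>
    hnx (hA.line_of_mid hρ h hx hr (by rw [← ha]; exact hra) hM)
  rcases hA.same x hx' a ha0 ha.le hnm with ht | ht
  · have h1 := hA.tip_lim hx ht hδ0
    rw [← hb₁] at h1
    exact key (away_of_ray_unif (r₁ := b₁) (fun r hr hr' => by
      have := (h1 r hr hr').1
      rwa [hδ] at this) y ⟨hy.1, mem_closedBall.2 e1⟩ hyx)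
  · have h1 := hA.tri_lim hx ht hδ0
    rw [← hb₂] at h1
    exact key (away_of_tripod_unif (r₁ := b₂) (fun r hr hr' => by
      have := (h1 r hr hr').1
      rwa [hδ] at this) y ⟨hy.1, mem_closedBall.2 e2⟩ hyx)

end Vale.Agent.P128.Q1

namespace Vale.Agent.P128.H861

open Vale.Agent.P128

variable {Ω : Set ℂ} {g u : ℂ → ℝ} {G : ℂ → ℂ} {K : Set ℂ}

theorem regular_of_lineType {M : ℝ} {x₀ : ℂ} {R₀ : ℝ} (h : Q1.MS Ω g u G K M x₀ R₀) {x : ℂ}
    (hx : x ∈ K ∩ ball x₀ R₀) (hl : Q1.LineType G K x) : IsRegularPt Ω K x := by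
  have hsub : ∀ r, 0 < r → r < R₀ → closedBall x r ⊆ Ω := fun r hr hr' =>
    (closedBall_subset_closedBall' (by linarith [h.R0, mem_ball.1 hx.2])).trans h.sub
  obtain ⟨s₀, φ, a, hφ, hr, ha⟩ := Q1.line_branches h hx hl
  obtain ⟨α, hα, H⟩ := Q1.arcThrough hφ hφ.pos le_rfl hr ha
  have h0 : 0 < min s₀ R₀ := lt_min hφ.pos h.R0
  obtain ⟨γ, γ', h4, h5⟩ := H (min s₀ R₀ / 2) (by positivity) (by
    have := min_le_left s₀ R₀
    linarith)
  refine ⟨min s₀ R₀ / 2, by positivity, hsub _ (by positivity) ?_, α, hα, γ, γ', IsArc.of_q1 h4, h5⟩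
  have := min_le_right s₀ R₀
  linarith

/-- **Uniform separation.** -/
theorem unif_main (M R : ℝ) (hR : 0 < R) : ∃ (ρ : ℝ) (N : ℕ), 0 < ρ ∧
    ∀ (Ω : Set ℂ) (g u : ℂ → ℝ) (G : ℂ → ℂ) (K : Set ℂ) (x₀ : ℂ), IsOpen Ω → ball x₀ R ⊆ Ω →
      MemLp g ⊤ (volume.restrict Ω) → (∀ᵐ z ∂(volume.restrict Ω), |g z| ≤ M) →
      (∀ᵐ z ∂(volume.restrict (ball x₀ R)), |u z| ≤ M) →
      IsMinimizer Ω g u G K → IsReduced Ω K →
        (∀ x ∈ K ∩ ball x₀ (R / 2), ∀ y ∈ K ∩ ball x₀ (R / 2), x ≠ y → ¬ IsRegularPt Ω K x →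
          ¬ IsRegularPt Ω K y → ρ ≤ dist x y) ∧
        {x ∈ K ∩ ball x₀ (R / 2) | ¬ IsRegularPt Ω K x}.Finite ∧
        {x ∈ K ∩ ball x₀ (R / 2) | ¬ IsRegularPt Ω K x}.ncard ≤ N := by
  obtain ⟨M', hM'⟩ : ∃ M', M' = max 1 M := ⟨_, rfl⟩
  obtain ⟨R', hR'⟩ : ∃ R', R' = min 1 (R / 16) := ⟨_, rfl⟩
  have hR'0 : 0 < R' := by rw [hR']; exact lt_min one_pos (by positivity)
  have hR'1 : R' ≤ 1 := by rw [hR']; exact min_le_left _ _
  have hR'2 : R' ≤ R / 16 := by rw [hR']; exact min_le_right _ _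
  obtain ⟨s, hs, H⟩ := Q1.sep_unif M' R'
  have hρ : 0 < min s R' := lt_min hs hR'0
  obtain ⟨t, ht, htc⟩ := Metric.totallyBounded_iff.1 (isCompact_closedBall (0 : ℂ) (R / 2)).totallyBounded
    (min s R' / 2) (by positivity)
  refine ⟨min s R', t.ncard, hρ, ?_⟩
  intro Ω g u G K x₀ hΩ hball hg hgM huM hmin hred
  have hsep : ∀ x ∈ K ∩ ball x₀ (R / 2), ∀ y ∈ K ∩ ball x₀ (R / 2), x ≠ y →
      ¬ IsRegularPt Ω K x → ¬ IsRegularPt Ω K y → min s R' ≤ dist x y := by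
    intro x hx y hy hxy hnx hny
    rcases le_or_gt R' (dist x y) with hd | hd
    · exact (min_le_right _ _).trans hd
    refine (min_le_left _ _).trans ?_
    have hsub : ball x (R / 2) ⊆ ball x₀ R :=
      ball_subset_ball' (by linarith [mem_ball.1 hx.2])
    obtain ⟨M₀, g', u₁, G₁, N, hG₁, hu₁, hM₀⟩ := normalize' hΩ hg hmin
    have hM₀' : M₀ ≤ M' := by
      refine hM₀ M' (by rw [hM']; exact zero_le_one.trans (le_max_left _ _)) ?_
      filter_upwards [hgM] with z hz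
      exact hz.trans (by rw [hM']; exact le_max_right _ _)
    obtain ⟨u', G', N', hc1, hG', hb', -, -⟩ := Q1.nice_rep N (x := x) (R₁ := R / 2) hM₀' (by
      have e1 := ae_mono (Measure.restrict_mono hsub le_rfl) huM
      have e2 := ae_mono (Measure.restrict_mono (hsub.trans hball) le_rfl) hu₁
      filter_upwards [e1, e2] with z h1 h2
      rw [← h2]
      exact h1.trans (by rw [hM']; exact le_max_right _ _))
    have hcb : closedBall x (4 * R') ⊆ ball x (R / 2) :=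
      closedBall_subset_ball (by linarith)
    have hMS : Q1.MS Ω g' u' G' K M' x R' :=
      { N := N'
        red := hred
        R0 := hR'0
        R1 := hR'1
        M1 := by rw [hM']; exact le_max_left _ _
        sub := hcb.trans (hsub.trans hball)
        bd := fun z hz => hb' z (hcb hz)
        c1 := hc1
        Gu := hG' }
    have hxx : x ∈ K ∩ ball x R' := ⟨hx.1, mem_ball_self hR'0⟩
    have hyy : y ∈ K ∩ ball x R' := ⟨hy.1, mem_ball'.2 hd⟩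
    rw [dist_comm]
    exact H Ω g' u' G' K x hMS x hxx y hyy hxy.symm
      (fun hl => hnx (regular_of_lineType hMS hxx hl))
      (fun hl => hny (regular_of_lineType hMS hyy hl))
  refine ⟨hsep, ?_⟩
  have hcov : ∀ x ∈ {x ∈ K ∩ ball x₀ (R / 2) | ¬ IsRegularPt Ω K x},
      ∃ p ∈ t, dist (x - x₀) p < min s R' / 2 := by
    rintro x ⟨⟨-, hx⟩, -⟩
    have h1 : x - x₀ ∈ closedBall (0 : ℂ) (R / 2) := by
      rw [mem_closedBall, dist_zero_right, ← dist_eq_norm]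
      exact (mem_ball.1 hx).le
    obtain ⟨p, hp, hxp⟩ := mem_iUnion₂.1 (htc h1)
    exact ⟨p, hp, hxp⟩
  choose! f hft hfd using hcov
  have hinj : InjOn f {x ∈ K ∩ ball x₀ (R / 2) | ¬ IsRegularPt Ω K x} := by
    intro x hx y hy hxy
    by_contra hne
    have h1 := hsep x hx.1 y hy.1 hne hx.2 hy.2
    have h2 := hfd x hx
    have h3 := hfd y hy
    rw [← hxy] at h3
    have h4 : dist x y = dist (x - x₀) (y - x₀) := by
      rw [dist_eq_norm, dist_eq_norm]; congr 1; ring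
    have h5 := dist_triangle_right (x - x₀) (y - x₀) (f x)
    linarith
  exact ⟨Set.Finite.of_injOn (fun x hx => hft x hx) hinj ht,
    Set.ncard_le_ncard_of_injOn f (fun x hx => hft x hx) hinj ht⟩

end Vale.Agent.P128.H861
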