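import Vale.Agent.P128.Bdl.B26

/-! The compactness theorem for sequences of minimizers. The proofs are those of the corresponding
statements about one minimizer (`MS.low`, `MS.amin`, `MS.blowup`, `close_of_blowup`, ...), with
explicit constants. -/

open MeasureTheory Set Metric Filter
open scoped ENNReal NNReal ContDiff Topology Real Pointwise

namespace Vale.Agent.P128.Q

open Vale.Agent.P128
open Vale.Agent.P128.GM (LocLip genergy IsGlobalMin W12loc)

variable {Ω K : Set ℂ} {g u : ℂ → ℝ} {M R₀ : ℝ} {x₀ : ℂ}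

theorem MS.low_unif (S : MS Ω g u K M x₀ R₀) :
    ∀ x ∈ K ∩ closedBall x₀ R₀, ∀ s ∈ Ioc 0 (min (R₀ / 2) (1 / (400 * M ^ 2))),
      s / 2 ≤ dir u x s + len K x s := by
  have hR0 := S.pos
  have hM1 := S.one_le
  have hM2 : 0 < M ^ 2 := by positivity
  intro x hx s hs
  have hs1 : s ≤ R₀ / 2 := hs.2.trans (min_le_left _ _)
  have hs2 : s ≤ 1 / (400 * M ^ 2) := hs.2.trans (min_le_right _ _)
  have hs0 := hs.1
  have hs3 : 100 * M ^ 2 * s ≤ 1 / 4 := by
    rw [le_div_iff₀ (by positivity)] at hs2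
    linarith only [hs2]
  have hxd : dist x x₀ ≤ R₀ := mem_closedBall.mp hx.2
  have hxb : ball x s ⊆ Ω := by
    refine ball_subset_closedBall.trans ?_
    refine (closedBall_subset_closedBall' (?_ : s + dist x x₀ ≤ 2 * R₀)).trans S.sub
    linarith only [hxd, hs0, hs1]
  have h1 := S.a5_one hx (s := 2 / 3 * s) (by positivity) (by linarith only [hs0, hs1]) (by linarith only [hs3])
  have h2 := S.a5_Hn_le x (s := 2 / 3 * s) (t := s) (by linarith only [hs0])
  have h3 := S.a5_En_mono (x := x) (s := 2 / 3 * s) (t := s) (by linarith only [hs0]) hxb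
  linarith only [h3, h2, h1]

/-- the scale of the blow-up -/
noncomputable def rhoU (M R₀ : ℝ) : ℝ := min (min 1 (R₀ / 2)) (min (R₀ / 2) (1 / (400 * M ^ 2)))

theorem rhoU_pos {M R₀ : ℝ} (hM : 1 ≤ M) (hR : 0 < R₀) : 0 < rhoU M R₀ := by
  unfold rhoU
  have : 0 < 1 / (400 * M ^ 2) := by positivity
  exact lt_min (lt_min one_pos (by linarith)) (lt_min (by linarith) this)

theorem MS.amin_unif {c₁ : ℝ} (hc₁ : 0 < c₁) (S : MS Ω g u K M x₀ R₀)
    (hgrad : ∀ (z : ℂ) (d : ℝ), 0 < d → ball z (2 * d) ⊆ ball x₀ (2 * R₀) \ K →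
      ∀ a ∈ ball z d, ∀ b ∈ ball z d,
        ‖grad u a‖ ≤ c₁ * (√(dir u z (2 * d)) / d + M * d) ∧
        ‖grad u a - grad u b‖ ≤ c₁ * (√(dir u z (2 * d)) / d ^ 2 * ‖a - b‖ + M * d)) :
    ∀ x ∈ K ∩ closedBall x₀ (R₀ / 2), ∀ r : ℝ, 0 < r → r < rhoU M R₀ →
      AMin c₁ (rhoU M R₀ / r) (4 * π * M ^ 2 * r) (blow u x r) (blowSet K x r) := by
  have hlow := S.low_unif
  have hR₀ := S.pos
  have hM := S.one_le
  obtain ⟨ρ₀, hρ₀def⟩ : ∃ ρ₀, ρ₀ = min (R₀ / 2) (1 / (400 * M ^ 2)) := ⟨_, rfl⟩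
  rw [← hρ₀def] at hlow
  have hρ₀ : 0 < ρ₀ := by rw [hρ₀def]; positivity
  unfold rhoU
  rw [← hρ₀def]
  set ρ := min (min 1 (R₀ / 2)) ρ₀ with hρ
  have hρ1 : ρ ≤ 1 := (min_le_left _ _).trans (min_le_left _ _)
  have hρ2 : ρ ≤ R₀ / 2 := (min_le_left _ _).trans (min_le_right _ _)
  have hρ3 : ρ ≤ ρ₀ := min_le_right _ _
  rintro x ⟨hxK, hx⟩ r hr hrρ
  rw [mem_closedBall] at hx
  have hsr : 0 < √r := Real.sqrt_pos.mpr hr
  have hr1 : r ≤ 1 := hrρ.le.trans hρ1
  have hBR : ball x ρ ⊆ ball x₀ R₀ := ball_subset_ball' (by linarith only [hx, hρ2])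
  have hB2 : ball x ρ ⊆ ball x₀ (2 * R₀) := hBR.trans (ball_subset_ball (by linarith only [hrρ, hr, hρ2]))
  have hBΩ : ball x ρ ⊆ Ω := hB2.trans (ball_subset_closedBall.trans S.sub)
  have hmem : ∀ z : ℂ, ‖z‖ < ρ / r → x + r * z ∈ ball x ρ := by
    intro z hz
    rw [mem_ball, dist_eq_norm, add_sub_cancel_left, norm_mul, Complex.norm_real,
      Real.norm_eq_abs, abs_of_pos hr]
    rw [lt_div_iff₀ hr] at hz
    linarith only [hz]
  have hball : ∀ (z : ℂ) (s : ℝ), ‖z‖ + s ≤ ρ / r → ball (x + r * z) (r * s) ⊆ ball x ρ := by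
    intro z s hzs
    refine ball_subset_ball' ?_
    rw [dist_eq_norm, add_sub_cancel_left, norm_mul, Complex.norm_real,
      Real.norm_eq_abs, abs_of_pos hr]
    rw [le_div_iff₀ hr] at hzs
    linarith only [hzs]
  have hcontφ : Continuous fun z : ℂ => x + r * z := by fun_prop
  constructor
  · positivity
  · intro z hz hzR
    have h1 : x + r * z ∈ closure K := hcontφ.closure_preimage_subset K hz
    exact S.nice.min.1.relClosed ⟨hBΩ (hmem z hzR), h1⟩
  · have h1 : ContDiffOn ℝ 1 (fun z : ℂ => u (x + r * z)) (ball 0 (ρ / r) \ blowSet K x r) := by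
      refine S.smooth.comp (ContDiff.contDiffOn (by fun_prop)) fun z hz => ⟨?_, hz.2⟩
      exact hBΩ (hmem z (mem_ball_zero_iff.mp hz.1))
    exact contDiffOn_const.mul h1
  · refine ⟨(√r)⁻¹ * M, fun z hz => ?_⟩
    rw [blow, abs_mul, abs_of_pos (inv_pos.mpr hsr)]
    exact mul_le_mul_of_nonneg_left (S.bdd _ (hB2 (hmem z (mem_ball_zero_iff.mp hz))))
      (inv_nonneg.mpr hsr.le)
  · rw [q6_int_blow u x 0 hr (ρ / r), mul_zero, add_zero, mul_div_cancel₀ _ hr.ne']
    exact S.q6_int_grad hBΩ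
  · have h1 := q6_hm_blow K x 0 hr (ρ / r)
    rw [mul_zero, add_zero, mul_div_cancel₀ _ hr.ne'] at h1
    have h2 : μH[1] (K ∩ ball x ρ) < ⊤ :=
      (measure_mono inter_subset_left).trans_lt S.nice.min.1.finite
    rw [h1] at h2
    by_contra h3
    rw [not_lt, top_le_iff] at h3
    rw [h3, ENNReal.mul_top (by simpa using hr)] at h2
    exact lt_irrefl _ h2
  · intro y hy s hs hys
    rw [dir_blow u x y hr, len_blow K x y hr, ← add_div, le_div_iff₀ hr]
    have h1 : x + r * y ∈ K ∩ closedBall x₀ R₀ :=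
      ⟨hy, ball_subset_closedBall (hBR (hmem y (by linarith only [hys, hs])))⟩
    have h2 : r * s ∈ Ioc 0 ρ₀ := by
      refine ⟨by positivity, ?_⟩
      have h3 : s ≤ ρ / r := by linarith only [norm_nonneg y, hys]
      rw [le_div_iff₀ hr] at h3
      linarith only [h3, hρ3]
    have h4 := hlow _ h1 _ h2
    linarith only [h4]
  · intro y s hs hys w L hLc hw hi hl hC
    exact S.q6_min hr hB2 y s hs hys w L hLc hw hi hl hC
  · intro z d hd hzd hzK a ha b hb
    have h1 : ball (x + r * z) (2 * (r * d)) ⊆ ball x₀ (2 * R₀) \ K := by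
      have e : 2 * (r * d) = r * (2 * d) := by ring
      rw [e]
      intro p hp
      refine ⟨hB2 (hball z (2 * d) hzd.le hp), fun hpK => ?_⟩
      have h2 : (p - x) / r ∈ ball z (2 * d) := by
        rw [← q6_mem_ball (x := x) hr, q6_affine_inv hr]; exact hp
      have h3 : (p - x) / r ∈ blowSet K x r := by
        show x + r * ((p - x) / r) ∈ K
        rw [q6_affine_inv hr]; exact hpK
      exact (eq_empty_iff_forall_notMem.mp hzK) _ ⟨h2, h3⟩
    have ha' : x + r * a ∈ ball (x + r * z) (r * d) := (q6_mem_ball hr).mpr ha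
    have hb' : x + r * b ∈ ball (x + r * z) (r * d) := (q6_mem_ball hr).mpr hb
    obtain ⟨g1, g2⟩ := hgrad (x + r * z) (r * d) (by positivity) h1 _ ha' _ hb'
    have hD : dir u (x + r * z) (2 * (r * d)) = r * dir (blow u x r) z (2 * d) := by
      have e : 2 * (r * d) = r * (2 * d) := by ring
      rw [dir_blow u x z hr, e]
      field_simp
    set D := dir (blow u x r) z (2 * d) with hDdef
    have hsD : √(r * D) = √r * √D := Real.sqrt_mul hr.le D
    have hss : √r * √r = r := Real.mul_self_sqrt hr.le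
    have hκ : √r * (M * (r * d)) ≤ 4 * π * M ^ 2 * r * d := by
      have h3 : √r ≤ 1 := Real.sqrt_le_one.mpr hr1
      have h4 : M ≤ 4 * π * M ^ 2 := by (by_contra nlg; linarith only [nlg, mul_pos (sub_pos.2 hrρ) (sub_pos.2 hrρ), mul_pos (sub_pos.2 hr) (sub_pos.2 hrρ), mul_pos (sub_pos.2 hr) (sub_pos.2 hr), mul_nonneg (sub_nonneg.2 hρ1) (sub_nonneg.2 h3), mul_nonneg (sub_nonneg.2 hρ1) (le_of_lt (sub_pos.2 hsr)), mul_nonneg (sub_nonneg.2 hρ1) (le_of_lt (sub_pos.2 hrρ)), mul_nonneg (sub_nonneg.2 hρ1) (le_of_lt (sub_pos.2 hr)), mul_nonneg (sub_nonneg.2 hM) (sub_nonneg.2 h3), mul_nonneg (sub_nonneg.2 hM) (le_of_lt (sub_pos.2 hsr)), mul_nonneg (sub_nonneg.2 hM) (sub_nonneg.2 hM), mul_pos (sub_pos.2 (not_le.1 nlg)) (sub_pos.2 hrρ), mul_pos (sub_pos.2 (not_le.1 nlg)) (sub_pos.2 hr), mul_nonneg (le_of_lt (sub_pos.2 (not_le.1 nlg))) (sub_nonneg.2 hρ1), mul_nonneg (sq_nonneg (M : ℝ)) (le_of_lt (sub_pos.2 Real.pi_gt_three))])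
      have h5 : 0 ≤ M * (r * d) := by positivity
      calc √r * (M * (r * d)) ≤ 1 * (M * (r * d)) := mul_le_mul_of_nonneg_right h3 h5
        _ = M * (r * d) := one_mul _
        _ ≤ (4 * π * M ^ 2) * (r * d) := mul_le_mul_of_nonneg_right h4 (by positivity)
        _ = _ := by ring
    have hab : ‖(x + r * a) - (x + r * b)‖ = r * ‖a - b‖ := by
      have : (x + r * a) - (x + r * b) = r * (a - b) := by ring
      rw [this, norm_mul, Complex.norm_real, Real.norm_eq_abs, abs_of_pos hr]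
    rw [hD, hsD] at g1 g2
    rw [hab] at g2
    constructor
    · rw [q6_grad_blow u x hr, norm_smul, Real.norm_eq_abs, abs_of_pos hsr]
      have e : √r * (√r * √D / (r * d)) = √D / d := by
        rw [← mul_div_assoc, ← mul_assoc, hss, mul_div_mul_left _ _ hr.ne']
      calc √r * ‖grad u (x + r * a)‖
          ≤ √r * (c₁ * (√r * √D / (r * d) + M * (r * d))) :=
            mul_le_mul_of_nonneg_left g1 hsr.le
        _ = c₁ * (√r * (√r * √D / (r * d)) + √r * (M * (r * d))) := by ring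
        _ ≤ c₁ * (√D / d + 4 * π * M ^ 2 * r * d) := by
          rw [e]
          exact mul_le_mul_of_nonneg_left (by linarith only [hκ]) hc₁.le
    · rw [q6_grad_blow u x hr, q6_grad_blow u x hr, ← smul_sub, norm_smul, Real.norm_eq_abs,
        abs_of_pos hsr]
      have e : √r * (√r * √D / (r * d) ^ 2 * (r * ‖a - b‖)) = √D / d ^ 2 * ‖a - b‖ := by
        have : √r * (√r * √D / (r * d) ^ 2 * (r * ‖a - b‖)) =
            (√r * √r) * √D / (r * d) ^ 2 * (r * ‖a - b‖) := by ring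
        rw [this, hss]
        field_simp
      calc √r * ‖grad u (x + r * a) - grad u (x + r * b)‖
          ≤ √r * (c₁ * (√r * √D / (r * d) ^ 2 * (r * ‖a - b‖) + M * (r * d))) :=
            mul_le_mul_of_nonneg_left g2 hsr.le
        _ = c₁ * (√r * (√r * √D / (r * d) ^ 2 * (r * ‖a - b‖)) + √r * (M * (r * d))) := by ring
        _ ≤ c₁ * (√D / d ^ 2 * ‖a - b‖ + 4 * π * M ^ 2 * r * d) := by
          rw [e]
          exact mul_le_mul_of_nonneg_left (by linarith only [hκ]) hc₁.le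

end Vale.Agent.P128.Q
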