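import Vale.Agent.P128.H861.Defs

open Set Metric Filter
open scoped Topology

namespace Vale.Agent.P128.H861

/-! ### Rays -/

/-- `A` meets every small circle about `y` in exactly one point. -/
def Ray (A : Set ℂ) (y : ℂ) : Prop := ∀ᶠ s in 𝓝[>] (0 : ℝ), ∃ p, A ∩ sphere y s = {p}

/-- Near `y`, the set `K` is a union of `m` rays meeting only at `y`. -/
def Star (m : ℕ) (K : Set ℂ) (y : ℂ) : Prop :=
  ∃ A : Fin m → Set ℂ, (∀ i, Ray (A i) y) ∧ (∀ i j, i ≠ j → A i ∩ A j ⊆ {y}) ∧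
    ∀ᶠ z in 𝓝 y, (z ∈ K ↔ ∃ i, z ∈ A i)

theorem eventually_sphere {P : ℂ → Prop} {y : ℂ} (h : ∀ᶠ z in 𝓝 y, P z) :
    ∀ᶠ s in 𝓝[>] (0 : ℝ), ∀ z ∈ sphere y s, P z := by
  obtain ⟨ε, hε, h1⟩ := Metric.eventually_nhds_iff.1 h
  filter_upwards [Ioo_mem_nhdsGT hε] with s hs z hz
  exact h1 (by rw [mem_sphere.1 hz]; exact hs.2)

theorem eventually_of_sphere {P : ℂ → Prop} {y : ℂ} (hy : P y)
    (h : ∀ᶠ s in 𝓝[>] (0 : ℝ), ∀ z ∈ sphere y s, P z) : ∀ᶠ z in 𝓝 y, P z := by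
  obtain ⟨ε, hε, h1⟩ := mem_nhdsGT_iff_exists_Ioo_subset.1 h
  filter_upwards [ball_mem_nhds y (show (0 : ℝ) < ε from hε)] with z hz
  rcases eq_or_ne z y with rfl | hne
  · exact hy
  · exact h1 ⟨dist_pos.2 hne, hz⟩ z (mem_sphere.2 rfl)

theorem Star.count {m : ℕ} {K : Set ℂ} {y : ℂ} (h : Star m K y) :
    ∀ᶠ s in 𝓝[>] (0 : ℝ), (K ∩ sphere y s).ncard = m := by
  obtain ⟨A, h1, h2, h3⟩ := h
  filter_upwards [eventually_all.2 h1, eventually_sphere h3, self_mem_nhdsWithin] with s h4 h5 h6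
  choose p hp using h4
  have e1 : K ∩ sphere y s = range p := by
    ext z
    constructor
    · rintro ⟨h7, h8⟩
      obtain ⟨i, hi⟩ := (h5 z h8).1 h7
      have : z ∈ A i ∩ sphere y s := ⟨hi, h8⟩
      rw [hp i] at this
      exact ⟨i, (mem_singleton_iff.1 this).symm⟩
    · rintro ⟨i, rfl⟩
      have : p i ∈ A i ∩ sphere y s := by rw [hp i]; rfl
      exact ⟨(h5 _ this.2).2 ⟨i, this.1⟩, this.2⟩
  have hinj : Function.Injective p := by
    intro i j hij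
    by_contra hne
    have ha : p i ∈ A i ∩ sphere y s := by rw [hp i]; rfl
    have hb : p j ∈ A j ∩ sphere y s := by rw [hp j]; rfl
    have hc : p i ∈ A i ∩ A j := ⟨ha.1, by rw [hij]; exact hb.1⟩
    have hd : p i = y := h2 i j hne hc
    have he := mem_sphere.1 ha.2
    rw [hd, dist_self] at he
    exact absurd he.symm (ne_of_gt h6)
  rw [e1, ← Set.image_univ, Set.ncard_image_of_injective _ hinj, Set.ncard_univ]
  simp

theorem Star.unique {m n : ℕ} {K : Set ℂ} {y : ℂ} (h : Star m K y) (h' : Star n K y) : m = n := by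
  obtain ⟨s, h1, h2⟩ := (h.count.and h'.count).exists
  rw [← h1, h2]

/-- A set contained in `K` and containing two rays at a point of type `Star 2` is a neighbourhood
of this point in `K`. -/
theorem Star.nhds {K A B D : Set ℂ} {y : ℂ} (h : Star 2 K y) (hA : Ray A y) (hB : Ray B y)
    (hAB : A ∩ B ⊆ {y}) (hAD : A ⊆ D) (hBD : B ⊆ D) (hD : D ⊆ K) (hy : y ∈ D) :
    ∀ᶠ z in 𝓝 y, z ∈ K → z ∈ D := by
  refine eventually_of_sphere (fun _ => hy) ?_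
  filter_upwards [h.count, hA, hB, self_mem_nhdsWithin] with s h1 h2 h3 h4 z hz hzK
  obtain ⟨p, hp⟩ := h2
  obtain ⟨q, hq⟩ := h3
  have ha : p ∈ A ∩ sphere y s := by rw [hp]; rfl
  have hb : q ∈ B ∩ sphere y s := by rw [hq]; rfl
  have hpq : p ≠ q := by
    intro he
    have hd : p = y := hAB ⟨ha.1, by rw [he]; exact hb.1⟩
    have he := mem_sphere.1 ha.2
    rw [hd, dist_self] at he
    exact absurd he.symm (ne_of_gt h4)
  have hfin : (K ∩ sphere y s).Finite := Set.finite_of_ncard_ne_zero (by rw [h1]; norm_num)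
  have hsub : ({p, q} : Set ℂ) ⊆ K ∩ sphere y s := by
    rintro w (rfl | rfl)
    · exact ⟨hD (hAD ha.1), ha.2⟩
    · exact ⟨hD (hBD hb.1), hb.2⟩
  have heq := Set.eq_of_subset_of_ncard_le hsub (by rw [h1, Set.ncard_pair hpq]) hfin
  have hz' : z ∈ ({p, q} : Set ℂ) := by rw [heq]; exact ⟨hzK, hz⟩
  rcases hz' with rfl | rfl
  · exact hAD ha.1
  · exact hBD hb.1

/-- A continuous injective curve which at first moves away from its starting point. -/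
theorem ray_of_mono {γ : ℝ → ℂ} {b δ : ℝ} (hδ : 0 < δ) (hδb : δ ≤ b)
    (hc : ContinuousOn γ (Icc 0 b)) (hi : InjOn γ (Icc 0 b))
    (hm : StrictMonoOn (fun t => dist (γ t) (γ 0)) (Icc 0 δ)) : Ray (γ '' Icc 0 b) (γ 0) := by
  have hb : 0 < b := hδ.trans_le hδb
  have hf : ContinuousOn (fun t => dist (γ t) (γ 0)) (Icc 0 b) :=
    continuous_dist.comp_continuousOn (hc.prodMk continuousOn_const)
  obtain ⟨t₀, ht₀, hmin⟩ := isCompact_Icc.exists_isMinOn (nonempty_Icc.2 hδb)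
    (hf.mono (Icc_subset_Icc_left hδ.le))
  have hpos : 0 < dist (γ t₀) (γ 0) := by
    rw [dist_pos]
    intro h
    have := hi ⟨hδ.le.trans ht₀.1, ht₀.2⟩ ⟨le_rfl, hb.le⟩ h
    linarith [ht₀.1]
  filter_upwards [Ioo_mem_nhdsGT hpos] with s hs
  have h1 : s ∈ Icc (dist (γ 0) (γ 0)) (dist (γ δ) (γ 0)) := by
    rw [dist_self]
    exact ⟨hs.1.le, hs.2.le.trans (hmin ⟨le_rfl, hδb⟩)⟩
  obtain ⟨t, ht, hts⟩ := intermediate_value_Icc hδ.le
    (hf.mono (Icc_subset_Icc_right hδb)) h1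
  refine ⟨γ t, Set.eq_singleton_iff_unique_mem.2
    ⟨⟨⟨t, ⟨ht.1, ht.2.trans hδb⟩, rfl⟩, mem_sphere.2 hts⟩, ?_⟩⟩
  rintro _ ⟨⟨t', ht', rfl⟩, h3⟩
  have h3' : dist (γ t') (γ 0) = s := mem_sphere.1 h3
  have h4 : t' ∈ Icc 0 δ := by
    refine ⟨ht'.1, ?_⟩
    by_contra hlt
    have h6 : dist (γ t₀) (γ 0) ≤ dist (γ t') (γ 0) := hmin ⟨(not_le.1 hlt).le, ht'.2⟩
    linarith [hs.2]
  have h5 := hm.injOn h4 ht (h3'.trans hts.symm)
  rw [h5]

/-! ### Arcs -/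

section

variable {α a b : ℝ} {γ γ' : ℝ → ℂ}

theorem IsArc.continuousOn (h : IsArc α a b γ γ') : ContinuousOn γ (Icc a b) :=
  fun t ht => (h.deriv t ht).continuousWithinAt

/-- Near `t₀` the curve is close to its tangent. -/
theorem IsArc.close (h : IsArc α a b γ γ') (hα : 0 < α) {t₀ ε : ℝ} (ht₀ : t₀ ∈ Icc a b)
    (hε : 0 < ε) : ∃ δ > 0, ∀ s ∈ Icc a b, ∀ t ∈ Icc a b, |s - t₀| ≤ δ → |t - t₀| ≤ δ →
      ‖γ t - γ s - (t - s : ℝ) • γ' t₀‖ ≤ ε * |t - s| := by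
  obtain ⟨C, hC⟩ := h.holder
  have h1 : Tendsto (fun δ : ℝ => |C| * δ ^ α) (𝓝[>] 0) (𝓝 0) := by
    have : Tendsto (fun δ : ℝ => |C| * δ ^ α) (𝓝 0) (𝓝 (|C| * 0 ^ α)) :=
      ((Real.continuousAt_rpow_const 0 α (Or.inr hα.le)).tendsto).const_mul _
    rw [Real.zero_rpow hα.ne', mul_zero] at this
    exact this.mono_left nhdsWithin_le_nhds
  obtain ⟨δ, hδ1, hδ⟩ := ((h1.eventually (gt_mem_nhds hε)).and self_mem_nhdsWithin).exists
  refine ⟨δ, hδ, fun s hs t ht hsd htd => ?_⟩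
  have hconv : Convex ℝ (Icc a b ∩ Icc (t₀ - δ) (t₀ + δ)) := (convex_Icc _ _).inter (convex_Icc _ _)
  have key := hconv.norm_image_sub_le_of_norm_hasDerivWithin_le
    (f := fun t : ℝ => γ t - t • γ' t₀) (f' := fun t => γ' t - γ' t₀) (C := ε)
    (fun t ht => by
      have e1 := (h.deriv t ht.1).mono (inter_subset_left (t := Icc (t₀ - δ) (t₀ + δ)))
      have e2 : HasDerivWithinAt (fun t : ℝ => t • γ' t₀) (γ' t₀)
          (Icc a b ∩ Icc (t₀ - δ) (t₀ + δ)) t := by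
        have := (hasDerivWithinAt_id t (Icc a b ∩ Icc (t₀ - δ) (t₀ + δ))).smul_const (γ' t₀)
        simpa using this
      exact e1.sub e2)
    (fun t ht => by
      have e1 := hC t ht.1 t₀ ht₀
      refine e1.trans ?_
      have e2 : |t - t₀| ≤ δ := abs_le.2 ⟨by linarith [ht.2.1], by linarith [ht.2.2]⟩
      calc C * |t - t₀| ^ α ≤ |C| * |t - t₀| ^ α :=
            mul_le_mul_of_nonneg_right (le_abs_self C) (Real.rpow_nonneg (abs_nonneg _) _)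
        _ ≤ |C| * δ ^ α := mul_le_mul_of_nonneg_left
            (Real.rpow_le_rpow (abs_nonneg _) e2 hα.le) (abs_nonneg C)
        _ ≤ ε := le_of_lt hδ1)
    (x := s) (y := t) ⟨hs, by have := abs_le.1 hsd; exact ⟨by linarith, by linarith⟩⟩
    ⟨ht, by have := abs_le.1 htd; exact ⟨by linarith, by linarith⟩⟩
  rw [Real.norm_eq_abs] at key
  have e3 : γ t - γ s - (t - s : ℝ) • γ' t₀ = (γ t - t • γ' t₀) - (γ s - s • γ' t₀) := by
    rw [sub_smul]; abel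
  rw [e3]
  exact key

/-- A curve close to its tangent moves away from its starting point. -/
theorem mono_of_close {p : ℝ → ℂ} {v : ℂ} {δ : ℝ} (hv : v ≠ 0)
    (h : ∀ s ∈ Icc 0 δ, ∀ t ∈ Icc 0 δ, ‖p t - p s - (t - s : ℝ) • v‖ ≤ ‖v‖ / 4 * |t - s|) :
    StrictMonoOn (fun t => dist (p t) (p 0)) (Icc 0 δ) := by
  intro s hs t ht hst
  have hδ : 0 ≤ δ := hs.1.trans hs.2
  have h0 : (0 : ℝ) ∈ Icc 0 δ := ⟨le_rfl, hδ⟩
  have hv0 : 0 < ‖v‖ := norm_pos_iff.2 hv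
  obtain ⟨eA, heA⟩ : ∃ e, e = p t - p 0 - (t - 0 : ℝ) • v := ⟨_, rfl⟩
  obtain ⟨eB, heB⟩ : ∃ e, e = p s - p 0 - (s - 0 : ℝ) • v := ⟨_, rfl⟩
  obtain ⟨e, he⟩ : ∃ e, e = p t - p s - (t - s : ℝ) • v := ⟨_, rfl⟩
  have hA : ‖eA‖ ≤ ‖v‖ / 4 * t := by
    have := h 0 h0 t ht
    rw [← heA, sub_zero, abs_of_nonneg ht.1] at this
    exact this
  have hB : ‖eB‖ ≤ ‖v‖ / 4 * s := by
    have := h 0 h0 s hs
    rw [← heB, sub_zero, abs_of_nonneg hs.1] at this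
    exact this
  have hE : ‖e‖ ≤ ‖v‖ / 4 * (t - s) := by
    have := h s hs t ht
    rw [← he, abs_of_pos (by linarith)] at this
    exact this
  have e1 : (p t - p 0) + (p s - p 0) = (t + s : ℝ) • v + (eA + eB) := by
    rw [heA, heB, sub_zero, sub_zero, add_smul]; abel
  have e2 : (p t - p 0) - (p s - p 0) = (t - s : ℝ) • v + e := by
    rw [he]; abel
  have e3 : ‖p t - p 0‖ ^ 2 - ‖p s - p 0‖ ^ 2 =
      inner ℝ ((t - s : ℝ) • v + e) ((t + s : ℝ) • v + (eA + eB)) := by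
    rw [← e1, ← e2, inner_sub_left, inner_add_right, inner_add_right,
      real_inner_self_eq_norm_sq, real_inner_self_eq_norm_sq, real_inner_comm (p s - p 0)]
    ring
  have hS : ‖eA + eB‖ ≤ ‖v‖ / 4 * (t + s) := by
    refine (norm_add_le _ _).trans ?_
    linarith
  have e4 : inner ℝ ((t - s : ℝ) • v + e) ((t + s : ℝ) • v + (eA + eB)) =
      (t - s) * (t + s) * ‖v‖ ^ 2 + (t - s) * inner ℝ v (eA + eB) + (t + s) * inner ℝ e v +
        inner ℝ e (eA + eB) := by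
    simp only [inner_add_left, inner_add_right, real_inner_smul_left, real_inner_smul_right,
      real_inner_self_eq_norm_sq]
    ring
  have b1 := abs_le.1 (abs_real_inner_le_norm v (eA + eB))
  have b2 := abs_le.1 (abs_real_inner_le_norm e v)
  have b3 := abs_le.1 (abs_real_inner_le_norm e (eA + eB))
  have hts : 0 < t - s := by linarith
  have hts' : 0 < t + s := by linarith [hs.1]
  have c1 : (t - s) * (‖v‖ * ‖eA + eB‖) ≤ (t - s) * (t + s) * (‖v‖ ^ 2 / 4) := by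
    have : ‖v‖ * ‖eA + eB‖ ≤ ‖v‖ * (‖v‖ / 4 * (t + s)) := by gcongr
    calc (t - s) * (‖v‖ * ‖eA + eB‖) ≤ (t - s) * (‖v‖ * (‖v‖ / 4 * (t + s))) := by gcongr
      _ = _ := by ring
  have c2 : (t + s) * (‖e‖ * ‖v‖) ≤ (t - s) * (t + s) * (‖v‖ ^ 2 / 4) := by
    calc (t + s) * (‖e‖ * ‖v‖) ≤ (t + s) * (‖v‖ / 4 * (t - s) * ‖v‖) := by gcongr
      _ = _ := by ring
  have c3 : ‖e‖ * ‖eA + eB‖ ≤ (t - s) * (t + s) * (‖v‖ ^ 2 / 16) := by
    calc ‖e‖ * ‖eA + eB‖ ≤ (‖v‖ / 4 * (t - s)) * (‖v‖ / 4 * (t + s)) := by gcongr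
      _ = _ := by ring
  have d1 : (t - s) * (-(‖v‖ * ‖eA + eB‖)) ≤ (t - s) * inner ℝ v (eA + eB) :=
    mul_le_mul_of_nonneg_left b1.1 hts.le
  have d2 : (t + s) * (-(‖e‖ * ‖v‖)) ≤ (t + s) * inner ℝ e v :=
    mul_le_mul_of_nonneg_left b2.1 hts'.le
  have hpos : 0 < (t - s) * (t + s) * ‖v‖ ^ 2 := by positivity
  have hfin : 0 < ‖p t - p 0‖ ^ 2 - ‖p s - p 0‖ ^ 2 := by
    rw [e3, e4]
    nlinarith [b3.1]
  have : ‖p s - p 0‖ < ‖p t - p 0‖ := by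
    refine lt_of_pow_lt_pow_left₀ 2 (norm_nonneg _) ?_
    linarith
  simp only [dist_eq_norm]
  exact this

end

end Vale.Agent.P128.H861
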