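import Vale.Agent.P128.MathlibUsed

open MeasureTheory Set Metric Filter
open scoped Topology

namespace Vale.Agent.P128.H861

/-- `γ` is, on the interval `[a, b]`, an injective `C^{1,α}` parametrisation with nonvanishing
derivative `γ'`. -/
structure IsArc (α a b : ℝ) (γ γ' : ℝ → ℂ) : Prop where
  inj : InjOn γ (Icc a b)
  deriv : ∀ t ∈ Icc a b, HasDerivWithinAt γ (γ' t) (Icc a b) t
  ne : ∀ t ∈ Icc a b, γ' t ≠ 0
  holder : ∃ C : ℝ, ∀ s ∈ Icc a b, ∀ t ∈ Icc a b, ‖γ' s - γ' t‖ ≤ C * |s - t| ^ α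

/-- `S` is an embedded `C^{1,α}` arc with `x` in its interior. -/
def ArcThrough (α : ℝ) (S : Set ℂ) (x : ℂ) : Prop :=
  ∃ γ γ' : ℝ → ℂ, IsArc α (-1) 1 γ γ' ∧ γ 0 = x ∧ S = γ '' Icc (-1) 1

/-- `S` is an embedded `C^{1,α}` arc ending at `x`. -/
def ArcEnding (α : ℝ) (S : Set ℂ) (x : ℂ) : Prop :=
  ∃ γ γ' : ℝ → ℂ, IsArc α 0 1 γ γ' ∧ γ 0 = x ∧ S = γ '' Icc 0 1

/-- `S` is the union of three embedded `C^{1,α}` arcs which start at `x`, meet only at `x`, and make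
there pairwise angles of 120 degrees. -/
def TripleJunction (α : ℝ) (S : Set ℂ) (x : ℂ) : Prop :=
  ∃ γ γ' : Fin 3 → ℝ → ℂ, (∀ i, IsArc α 0 1 (γ i) (γ' i) ∧ γ i 0 = x) ∧
    S = ⋃ i, γ i '' Icc 0 1 ∧
    (∀ i j, i ≠ j → γ i '' Icc 0 1 ∩ γ j '' Icc 0 1 = {x}) ∧
    ∀ i j, i ≠ j → inner ℝ (γ' i 0) (γ' j 0) = -(1 / 2) * (‖γ' i 0‖ * ‖γ' j 0‖)

/-- Case (i) of Q1 at the point `x`: `x` is a *regular point* of `K`. -/
def IsRegularPt (Ω K : Set ℂ) (x : ℂ) : Prop :=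
  ∃ r : ℝ, 0 < r ∧ closedBall x r ⊆ Ω ∧ ∃ α : ℝ, 0 < α ∧ ArcThrough α (K ∩ closedBall x r) x

/-- Case (ii) of Q1 at the point `x`: `x` is a *crack-tip* of `K`. -/
def IsTip (Ω K : Set ℂ) (x : ℂ) : Prop :=
  ∃ r : ℝ, 0 < r ∧ closedBall x r ⊆ Ω ∧ ∃ α : ℝ, 0 < α ∧ ArcEnding α (K ∩ closedBall x r) x

/-- Case (iii) of Q1 at the point `x`: `x` is a *triple junction* of `K`. -/
def IsTriplePt (Ω K : Set ℂ) (x : ℂ) : Prop :=
  ∃ r : ℝ, 0 < r ∧ closedBall x r ⊆ Ω ∧ ∃ α : ℝ, 0 < α ∧ TripleJunction α (K ∩ closedBall x r) x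

/-- At the point `x` the set `K` has the length density `ℓ` and `G` has the energy density `e`:
as `r → 0`, the length of `K` in the closed disk of radius `r` about `x`, divided by `r`, tends to
`ℓ`, and the integral of `|G|²` over this disk minus `K`, divided by `r`, tends to `e`. -/
def HasDensities (G : ℂ → ℂ) (K : Set ℂ) (x : ℂ) (ℓ e : ℝ) : Prop :=
  Tendsto (fun r : ℝ => (μH[1] (K ∩ closedBall x r)).toReal / r) (𝓝[>] 0) (𝓝 ℓ) ∧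
    Tendsto (fun r : ℝ => (∫ z in closedBall x r \ K, ‖G z‖ ^ 2) / r) (𝓝[>] 0) (𝓝 e)

end Vale.Agent.P128.H861
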