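import Vale.Agent.P128.H861.Fan

open Set Metric Filter
open scoped Topology

namespace Vale.Agent.P128.H861

variable {K : Set ℂ}

/-- An arc contained in `K`, all of whose interior points are of type `Star 2`. -/
structure GoodArc (K : Set ℂ) (p : (ℝ → ℂ) × (ℝ → ℂ)) : Prop where
  arc : ∃ α, 0 < α ∧ IsArc α 0 1 p.1 p.2
  sub : p.1 '' Icc 0 1 ⊆ K
  star : ∀ t ∈ Ioo (0 : ℝ) 1, Star 2 K (p.1 t)

/-- A good arc is a neighbourhood in `K` of each of its interior points. -/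
theorem GoodArc.nhds {p : (ℝ → ℂ) × (ℝ → ℂ)} (h : GoodArc K p) {t : ℝ} (ht : t ∈ Ioo (0 : ℝ) 1) :
    ∀ᶠ z in 𝓝 (p.1 t), z ∈ K → z ∈ p.1 '' Icc 0 1 := by
  obtain ⟨α, hα, ha⟩ := h.arc
  exact (h.star t ht).nhds (ha.ray_left hα ht.1 ht.2.le) (ha.ray_right hα ht.1.le ht.2)
    (ha.inter_left_right ht.1.le ht.2.le) (image_mono (Icc_subset_Icc_right ht.2.le))
    (image_mono (Icc_subset_Icc_left ht.1.le)) h.sub ⟨t, Ioo_subset_Icc_self ht, rfl⟩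

theorem GoodArc.isClosed {p : (ℝ → ℂ) × (ℝ → ℂ)} (h : GoodArc K p) :
    IsClosed (p.1 '' Icc 0 1) := by
  obtain ⟨α, hα, ha⟩ := h.arc
  exact (ha.compact_image le_rfl le_rfl).isClosed

theorem GoodArc.preconnected {p : (ℝ → ℂ) × (ℝ → ℂ)} (h : GoodArc K p) :
    IsPreconnected (p.1 '' Icc 0 1) := by
  obtain ⟨α, hα, ha⟩ := h.arc
  exact isPreconnected_Icc.image _ ha.continuousOn

/-- the affine subarc -/
noncomputable def subPair (p : (ℝ → ℂ) × (ℝ → ℂ)) (c d : ℝ) : (ℝ → ℂ) × (ℝ → ℂ) :=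
  (fun t => p.1 (c + (d - c) * t), fun t => ((d - c : ℝ) : ℂ) * p.2 (c + (d - c) * t))

theorem GoodArc.subPair {p : (ℝ → ℂ) × (ℝ → ℂ)} (h : GoodArc K p) {c d : ℝ} (hc : 0 ≤ c)
    (hcd : c < d) (hd : d ≤ 1) : GoodArc K (subPair p c d) := by
  obtain ⟨α, hα, ha⟩ := h.arc
  refine ⟨⟨α, hα, ha.sub hc hcd hd⟩, ?_, ?_⟩
  · exact (image_sub_Icc (γ := p.1) hcd).subset.trans
      ((image_mono (Icc_subset_Icc hc hd)).trans h.sub)
  · intro t ht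
    exact h.star _ ⟨by nlinarith [ht.1, ht.2], by nlinarith [ht.1, ht.2]⟩

/-- Near the centre of a fan, the set is covered by finitely many good arcs. -/
theorem Fan.goodArcs {m : ℕ} {x : ℂ} (h : Fan m K x) :
    ∃ F : Set ((ℝ → ℂ) × (ℝ → ℂ)), F.Finite ∧ (∀ p ∈ F, GoodArc K p) ∧
      ∀ᶠ z in 𝓝 x, z ∈ K → z ∈ ⋃ p ∈ F, p.1 '' Icc 0 1 := by
  have hp := h.punctured
  obtain ⟨α, γ, γ', hα, h1, h2, h3, h4⟩ := h
  have hq : ∀ᶠ z in 𝓝 x, (z ∈ K ↔ ∃ i, z ∈ γ i '' Icc 0 1) ∧ (z ≠ x → z ∈ K → Star 2 K z) := by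
    filter_upwards [h4, eventually_nhdsWithin_iff.1 hp] with z hz hz'
    exact ⟨hz, hz'⟩
  obtain ⟨ρ, hρ, h5⟩ := Metric.eventually_nhds_iff.1 hq
  have h6 : ∀ᶠ τ in 𝓝[>] (0 : ℝ), ∀ i, ∀ t ∈ Icc 0 τ, γ i t ∈ ball x ρ := by
    refine eventually_all.2 fun i => ?_
    have hc := (h1 i).continuousOn 0 ⟨le_rfl, zero_le_one⟩
    have hb : ball x ρ ∈ 𝓝 (γ i 0) := by rw [h2 i]; exact ball_mem_nhds x hρ
    obtain ⟨ε, hε, h7⟩ := Metric.mem_nhdsWithin_iff.1 (hc hb)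
    filter_upwards [Ioo_mem_nhdsGT (lt_min hε one_pos)] with τ hτ t ht
    refine h7 ⟨?_, ht.1, ht.2.trans (hτ.2.le.trans (min_le_right _ _))⟩
    rw [mem_ball, Real.dist_eq, sub_zero, abs_of_nonneg ht.1]
    exact ht.2.trans_lt (hτ.2.trans_le (min_le_left _ _))
  obtain ⟨τ, h7, hτ0, hτ1⟩ := (h6.and (Ioo_mem_nhdsGT (one_pos (α := ℝ)))).exists
  refine ⟨range fun i => subPair (γ i, γ' i) 0 τ, finite_range _, ?_, ?_⟩
  · rintro _ ⟨i, rfl⟩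
    refine ⟨⟨α, hα, (h1 i).sub le_rfl hτ0 hτ1.le⟩, ?_, ?_⟩
    · refine (image_sub_Icc (γ := γ i) hτ0).subset.trans ?_
      rintro _ ⟨t, ht, rfl⟩
      exact (h5 (h7 i t ht)).1.2 ⟨i, t, ⟨ht.1, ht.2.trans hτ1.le⟩, rfl⟩
    · intro t ht
      have e0 : (0 : ℝ) < 0 + (τ - 0) * t := by
        rw [zero_add, sub_zero]; exact mul_pos hτ0 ht.1
      have e1 : 0 + (τ - 0) * t < τ := by
        rw [zero_add, sub_zero]; nlinarith [ht.2]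
      have hmem : γ i (0 + (τ - 0) * t) ∈ ball x ρ := h7 i _ ⟨e0.le, e1.le⟩
      have hK : γ i (0 + (τ - 0) * t) ∈ K :=
        (h5 hmem).1.2 ⟨i, _, ⟨e0.le, (e1.trans hτ1).le⟩, rfl⟩
      refine (h5 hmem).2 ?_ hK
      intro he
      rw [← h2 i] at he
      have := (h1 i).inj ⟨e0.le, (e1.trans hτ1).le⟩ ⟨le_rfl, zero_le_one⟩ he
      exact e0.ne' this
  · have h8 : ∀ᶠ z in 𝓝 x, ∀ i, z ∉ γ i '' Icc τ 1 := by
      refine eventually_all.2 fun i => ?_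
      refine ((h1 i).compact_image hτ0.le le_rfl).isClosed.isOpen_compl.mem_nhds ?_
      rintro ⟨t, ht, hx⟩
      rw [← h2 i] at hx
      have := (h1 i).inj ⟨hτ0.le.trans ht.1, ht.2⟩ ⟨le_rfl, zero_le_one⟩ hx
      linarith [ht.1]
    filter_upwards [h4, h8] with z hz hz' hzK
    obtain ⟨i, t, ht, hty⟩ := hz.1 hzK
    have htτ : t ≤ τ := by
      by_contra hlt
      exact hz' i ⟨t, ⟨(not_le.1 hlt).le, ht.2⟩, hty⟩
    refine mem_iUnion₂.2 ⟨_, ⟨i, rfl⟩, ?_⟩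
    have := (image_sub_Icc (γ := γ i) hτ0).symm.subset ⟨t, ⟨ht.1, htτ⟩, hty⟩
    exact this

/-- Finite covers by good arcs of compact parts of `K`. -/
theorem exists_cover {D : Set ℂ} (hD : IsCompact D) (hDK : D ⊆ K)
    (hF : ∀ x ∈ D, ∃ m, Fan m K x) :
    ∃ F : Set ((ℝ → ℂ) × (ℝ → ℂ)), F.Finite ∧ (∀ p ∈ F, GoodArc K p) ∧
      D ⊆ ⋃ p ∈ F, p.1 '' Icc 0 1 := by
  refine hD.induction_on (p := fun s => ∃ F : Set ((ℝ → ℂ) × (ℝ → ℂ)), F.Finite ∧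
    (∀ p ∈ F, GoodArc K p) ∧ s ⊆ ⋃ p ∈ F, p.1 '' Icc 0 1) ?_ ?_ ?_ ?_
  · exact ⟨∅, finite_empty, fun p hp => absurd hp (notMem_empty p), empty_subset _⟩
  · rintro s t hst ⟨F, h1, h2, h3⟩
    exact ⟨F, h1, h2, hst.trans h3⟩
  · rintro s t ⟨F, h1, h2, h3⟩ ⟨F', h1', h2', h3'⟩
    refine ⟨F ∪ F', h1.union h1', ?_, ?_⟩
    · rintro p (hp | hp)
      · exact h2 p hp
      · exact h2' p hp
    · rw [biUnion_union]
      exact union_subset_union h3 h3'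
  · intro x hx
    obtain ⟨m, hm⟩ := hF x hx
    obtain ⟨F, h1, h2, h3⟩ := hm.goodArcs
    refine ⟨{z | z ∈ K → z ∈ ⋃ p ∈ F, p.1 '' Icc 0 1} ∩ D,
      inter_mem (mem_nhdsWithin_of_mem_nhds h3) self_mem_nhdsWithin, F, h1, h2, ?_⟩
    rintro z ⟨hz, hzD⟩
    exact hz (hDK hzD)

/-- Cutting a good arc at finitely many parameters. -/
theorem GoodArc.cut {p : (ℝ → ℂ) × (ℝ → ℂ)} (h : GoodArc K p) {V : Set ℂ} (hV : V.Finite)
    (h0 : p.1 0 ∈ V) (h1 : p.1 1 ∈ V) :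
    ∃ F : Set ((ℝ → ℂ) × (ℝ → ℂ)), F.Finite ∧ (∀ q ∈ F, GoodArc K q) ∧
      (∀ q ∈ F, q.1 0 ∈ V ∧ q.1 1 ∈ V ∧ ∀ t ∈ Ioo (0 : ℝ) 1, q.1 t ∉ V) ∧
      p.1 '' Icc 0 1 ⊆ ⋃ q ∈ F, q.1 '' Icc 0 1 := by
  classical
  obtain ⟨α, hα, ha⟩ := h.arc
  have hT : (Icc (0 : ℝ) 1 ∩ p.1 ⁻¹' V).Finite := by
    refine Set.Finite.of_finite_image (f := p.1) (hV.subset ?_) (ha.inj.mono inter_subset_left)
    rintro _ ⟨t, ht, rfl⟩
    exact ht.2
  obtain ⟨T, hTdef⟩ : ∃ T, T = hT.toFinset := ⟨_, rfl⟩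
  have hmem : ∀ t, t ∈ T ↔ t ∈ Icc (0 : ℝ) 1 ∧ p.1 t ∈ V := fun t => by
    rw [hTdef, Set.Finite.mem_toFinset]; rfl
  have m0 : (0 : ℝ) ∈ T := (hmem 0).2 ⟨⟨le_rfl, zero_le_one⟩, h0⟩
  have m1 : (1 : ℝ) ∈ T := (hmem 1).2 ⟨⟨zero_le_one, le_rfl⟩, h1⟩
  refine ⟨(fun e : ℝ × ℝ => H861.subPair p e.1 e.2) ''
    {e | e ∈ T ×ˢ T ∧ e.1 < e.2 ∧ ∀ t ∈ T, ¬ (e.1 < t ∧ t < e.2)}, ?_, ?_, ?_, ?_⟩
  · exact ((T ×ˢ T).finite_toSet.subset fun e he => he.1).image _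
  · rintro _ ⟨⟨c, d⟩, ⟨he, hcd, -⟩, rfl⟩
    rw [Finset.mem_product] at he
    exact h.subPair ((hmem c).1 he.1).1.1 hcd ((hmem d).1 he.2).1.2
  · rintro _ ⟨⟨c, d⟩, ⟨he, hcd, hno⟩, rfl⟩
    rw [Finset.mem_product] at he
    have hc := (hmem c).1 he.1
    have hd := (hmem d).1 he.2
    simp only at hcd hno
    refine ⟨?_, ?_, ?_⟩
    · simpa [H861.subPair] using hc.2
    · simpa [H861.subPair] using hd.2
    · intro t ht hV'
      have e1 : c < c + (d - c) * t := by nlinarith [ht.1]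
      have e2 : c + (d - c) * t < d := by nlinarith [ht.2]
      exact hno (c + (d - c) * t) ((hmem _).2
        ⟨⟨hc.1.1.trans e1.le, e2.le.trans hd.1.2⟩, hV'⟩) ⟨e1, e2⟩
  · rintro _ ⟨t, ht, rfl⟩
    -- a pair of consecutive cut points around `t`
    obtain ⟨c, d, hc, hd, hcd, hno, hct, htd⟩ : ∃ c d, c ∈ T ∧ d ∈ T ∧ c < d ∧
        (∀ s ∈ T, ¬ (c < s ∧ s < d)) ∧ c ≤ t ∧ t ≤ d := by
      rcases ht.2.eq_or_lt with rfl | ht1
      · have hne : (T.filter (· < (1 : ℝ))).Nonempty := ⟨0, by simp [m0]⟩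
        refine ⟨(T.filter (· < (1 : ℝ))).max' hne, 1, ?_, m1, ?_, ?_, ?_, le_rfl⟩
        · exact (Finset.mem_filter.1 (Finset.max'_mem _ hne)).1
        · exact (Finset.mem_filter.1 (Finset.max'_mem _ hne)).2
        · rintro s hs ⟨h3, h4⟩
          have := Finset.le_max' (T.filter (· < (1 : ℝ))) s (Finset.mem_filter.2 ⟨hs, h4⟩)
          exact absurd h3 (not_lt.2 this)
        · exact (Finset.mem_filter.1 (Finset.max'_mem _ hne)).2.le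
      · have hne : (T.filter (· ≤ t)).Nonempty := ⟨0, by simp [m0, ht.1]⟩
        have hne' : (T.filter (t < ·)).Nonempty := ⟨1, by simp [m1, ht1]⟩
        have a1 := Finset.mem_filter.1 (Finset.max'_mem _ hne)
        have a2 := Finset.mem_filter.1 (Finset.min'_mem _ hne')
        refine ⟨(T.filter (· ≤ t)).max' hne, (T.filter (t < ·)).min' hne', a1.1, a2.1,
          a1.2.trans_lt a2.2, ?_, a1.2, a2.2.le⟩
        rintro s hs ⟨h3, h4⟩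
        rcases le_or_gt s t with hst | hst
        · have := Finset.le_max' (T.filter (· ≤ t)) s (Finset.mem_filter.2 ⟨hs, hst⟩)
          exact absurd h3 (not_lt.2 this)
        · have := Finset.min'_le (T.filter (t < ·)) s (Finset.mem_filter.2 ⟨hs, hst⟩)
          exact absurd h4 (not_lt.2 this)
    refine mem_iUnion₂.2 ⟨_, ⟨(c, d), ⟨Finset.mem_product.2 ⟨hc, hd⟩, hcd, hno⟩, rfl⟩, ?_⟩
    exact (image_sub_Icc (γ := p.1) hcd).symm.subset ⟨t, ⟨hct, htd⟩, rfl⟩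

/-- Two good arcs with end points in `V` and interiors avoiding `V` have the same interior as soon
as the interior of one meets the other one. -/
theorem GoodArc.interior_subset {p q : (ℝ → ℂ) × (ℝ → ℂ)} (hp : GoodArc K p) (hq : GoodArc K q)
    {V : Set ℂ} (hpV : ∀ t ∈ Ioo (0 : ℝ) 1, p.1 t ∉ V) (hq0 : q.1 0 ∈ V) (hq1 : q.1 1 ∈ V)
    {z : ℂ} (hz : z ∈ p.1 '' Ioo 0 1) (hzq : z ∈ q.1 '' Icc 0 1) :
    p.1 '' Ioo 0 1 ⊆ q.1 '' Ioo 0 1 := by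
  obtain ⟨α, hα, ha⟩ := hp.arc
  have hconn : IsPreconnected (p.1 '' Ioo 0 1) :=
    isPreconnected_Ioo.image _ (ha.continuousOn.mono Ioo_subset_Icc_self)
  have hnV : ∀ w ∈ p.1 '' Ioo 0 1, w ∉ V := by
    rintro _ ⟨t, ht, rfl⟩
    exact hpV t ht
  have hint : ∀ w ∈ p.1 '' Ioo 0 1, w ∈ q.1 '' Icc 0 1 → w ∈ q.1 '' Ioo 0 1 := by
    rintro w hw ⟨t, ht, rfl⟩
    refine ⟨t, ⟨ht.1.lt_of_ne ?_, ht.2.lt_of_ne ?_⟩, rfl⟩
    · rintro rfl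
      exact hnV _ hw hq0
    · rintro rfl
      exact hnV _ hw hq1
  obtain ⟨U, hUdef⟩ : ∃ U : Set ℂ, U = interior {w | w ∈ K → w ∈ q.1 '' Icc 0 1} := ⟨_, rfl⟩
  have hU : IsOpen U := by rw [hUdef]; exact isOpen_interior
  have hUmem : ∀ w ∈ q.1 '' Ioo 0 1, w ∈ U := by
    rintro _ ⟨t, ht, rfl⟩
    rw [hUdef, mem_interior_iff_mem_nhds]
    exact hq.nhds ht
  have hUsub : ∀ w ∈ U, w ∈ K → w ∈ q.1 '' Icc 0 1 := by
    intro w hw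
    rw [hUdef] at hw
    exact (_root_.interior_subset hw : w ∈ {w | w ∈ K → w ∈ q.1 '' Icc 0 1})
  have hpK : p.1 '' Ioo 0 1 ⊆ K := (image_mono Ioo_subset_Icc_self).trans hp.sub
  have key := isPreconnected_iff_subset_of_disjoint.1 hconn U (q.1 '' Icc 0 1)ᶜ hU
    hq.isClosed.isOpen_compl
    (fun w hw => by
      by_cases hwq : w ∈ q.1 '' Icc 0 1
      · exact Or.inl (hUmem w (hint w hw hwq))
      · exact Or.inr hwq)
    (by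
      ext w
      simp only [mem_inter_iff, mem_compl_iff, mem_empty_iff_false, iff_false, not_and, not_not]
      intro hw hwU
      exact hUsub w hwU (hpK hw))
  rcases key with key | key
  · intro w hw
    exact hint w hw (hUsub w (key hw) (hpK hw))
  · exact absurd hzq (key hz)

/-- **Finite graphs.** A compact part of `K` is covered by finitely many arcs in `K` which meet only
at common end points. -/
theorem exists_graph {D : Set ℂ} (hD : IsCompact D) (hDK : D ⊆ K)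
    (hF : ∀ x ∈ D, ∃ m, Fan m K x) :
    ∃ (α : ℝ) (N : ℕ) (γ γ' : Fin N → ℝ → ℂ), 0 < α ∧ (∀ i, IsArc α 0 1 (γ i) (γ' i)) ∧
      (∀ i, γ i '' Icc 0 1 ⊆ K) ∧ D ⊆ ⋃ i, γ i '' Icc 0 1 ∧
      (∀ i j, i ≠ j → γ i '' Icc 0 1 ∩ γ j '' Icc 0 1 ⊆ {γ i 0, γ i 1} ∩ {γ j 0, γ j 1}) ∧
      ∀ i, ∀ t ∈ Ioo (0 : ℝ) 1, Star 2 K (γ i t) := by
  classical
  obtain ⟨F, hFfin, hFgood, hFcov⟩ := exists_cover hD hDK hF
  obtain ⟨V, hVdef⟩ : ∃ V : Set ℂ, V = (fun p : (ℝ → ℂ) × (ℝ → ℂ) => p.1 0) '' F ∪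
    (fun p : (ℝ → ℂ) × (ℝ → ℂ) => p.1 1) '' F := ⟨_, rfl⟩
  have hV : V.Finite := by rw [hVdef]; exact (hFfin.image _).union (hFfin.image _)
  have hV0 : ∀ p ∈ F, p.1 0 ∈ V := fun p hp => by
    rw [hVdef]; exact Or.inl (mem_image_of_mem _ hp)
  have hV1 : ∀ p ∈ F, p.1 1 ∈ V := fun p hp => by
    rw [hVdef]; exact Or.inr (mem_image_of_mem (fun p : (ℝ → ℂ) × (ℝ → ℂ) => p.1 1) hp)
  choose! H h1 h2 h3 h4 using fun p (hp : p ∈ F) => (hFgood p hp).cut hV (hV0 p hp) (hV1 p hp)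
  obtain ⟨S, hSdef⟩ : ∃ S, S = ⋃ p ∈ F, H p := ⟨_, rfl⟩
  have hSfin : S.Finite := by rw [hSdef]; exact hFfin.biUnion h1
  have hSgood : ∀ q ∈ S, GoodArc K q := by
    intro q hq
    rw [hSdef] at hq
    obtain ⟨p, hp, hq⟩ := mem_iUnion₂.1 hq
    exact h2 p hp q hq
  have hSV : ∀ q ∈ S, q.1 0 ∈ V ∧ q.1 1 ∈ V ∧ ∀ t ∈ Ioo (0 : ℝ) 1, q.1 t ∉ V := by
    intro q hq
    rw [hSdef] at hq
    obtain ⟨p, hp, hq⟩ := mem_iUnion₂.1 hq
    exact h3 p hp q hq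
  have hScov : D ⊆ ⋃ q ∈ S, q.1 '' Icc 0 1 := by
    intro z hz
    obtain ⟨p, hp, hzp⟩ := mem_iUnion₂.1 (hFcov hz)
    obtain ⟨q, hq, hzq⟩ := mem_iUnion₂.1 (h4 p hp hzp)
    exact mem_iUnion₂.2 ⟨q, by rw [hSdef]; exact mem_iUnion₂.2 ⟨p, hp, hq⟩, hzq⟩
  -- one arc for each interior
  obtain ⟨J, hJdef⟩ : ∃ J : Set (Set ℂ), J = (fun q : (ℝ → ℂ) × (ℝ → ℂ) => q.1 '' Ioo 0 1) '' S :=
    ⟨_, rfl⟩
  have hJfin : J.Finite := by rw [hJdef]; exact hSfin.image _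
  have hJ : ∀ j : J, ∃ q ∈ S, q.1 '' Ioo 0 1 = j.1 := by
    rintro ⟨j, hj⟩
    rw [hJdef] at hj
    obtain ⟨q, hq, hqj⟩ := hj
    exact ⟨q, hq, hqj⟩
  choose r hrS hrj using hJ
  have : Finite J := hJfin
  obtain ⟨N, ⟨e⟩⟩ := Finite.exists_equiv_fin J
  have hgood : ∀ i, GoodArc K (r (e.symm i)) := fun i => hSgood _ (hrS _)
  have hα : ∀ᶠ α in 𝓝[>] (0 : ℝ), ∀ i, IsArc α 0 1 (r (e.symm i)).1 (r (e.symm i)).2 := by
    refine eventually_all.2 fun i => ?_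
    obtain ⟨β, hβ, hb⟩ := (hgood i).arc
    filter_upwards [Ioo_mem_nhdsGT hβ] with α hα
    exact hb.mono_exp hα.1 hα.2.le
  obtain ⟨α, hα1, hα0⟩ := (hα.and self_mem_nhdsWithin).exists
  refine ⟨α, N, fun i => (r (e.symm i)).1, fun i => (r (e.symm i)).2, hα0, hα1,
    fun i => (hgood i).sub, ?_, ?_, fun i => (hgood i).star⟩
  · intro z hz
    obtain ⟨q, hq, hzq⟩ := mem_iUnion₂.1 (hScov hz)
    obtain ⟨j, hj⟩ : ∃ j : J, j.1 = q.1 '' Ioo 0 1 :=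
      ⟨⟨_, by rw [hJdef]; exact mem_image_of_mem _ hq⟩, rfl⟩
    refine mem_iUnion.2 ⟨e j, ?_⟩
    simp only [Equiv.symm_apply_apply]
    have e1 : q.1 '' Icc 0 1 ⊆ closure (q.1 '' Ioo 0 1) := by
      obtain ⟨β, hβ, hb⟩ := (hSgood q hq).arc
      have h5 : Icc (0 : ℝ) 1 = closure (Ioo 0 1) := (closure_Ioo zero_ne_one).symm
      have h6 : ContinuousOn q.1 (closure (Ioo 0 1)) := by rw [← h5]; exact hb.continuousOn
      rw [h5]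
      exact h6.image_closure
    have e2 : closure ((r j).1 '' Ioo 0 1) ⊆ (r j).1 '' Icc 0 1 :=
      closure_minimal (image_mono Ioo_subset_Icc_self) (hSgood _ (hrS j)).isClosed
    refine e2 ?_
    rw [hrj, hj]
    exact e1 hzq
  · intro i j hij z hz
    have hne : (r (e.symm i)).1 '' Ioo 0 1 ≠ (r (e.symm j)).1 '' Ioo 0 1 := by
      rw [hrj, hrj]
      intro h
      exact hij (e.symm.injective (Subtype.ext h))
    have key : ∀ i j, (r (e.symm i)).1 '' Ioo 0 1 ≠ (r (e.symm j)).1 '' Ioo 0 1 →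
        z ∈ (r (e.symm i)).1 '' Icc 0 1 → z ∈ (r (e.symm j)).1 '' Icc 0 1 →
        z ∈ ({(r (e.symm i)).1 0, (r (e.symm i)).1 1} : Set ℂ) := by
      intro i j hne hi hj
      obtain ⟨a1, a2, a3⟩ := hSV _ (hrS (e.symm i))
      obtain ⟨b1, b2, b3⟩ := hSV _ (hrS (e.symm j))
      by_contra hz
      have hzi : z ∈ (r (e.symm i)).1 '' Ioo 0 1 := by
        obtain ⟨t, ht, rfl⟩ := hi
        refine ⟨t, ⟨ht.1.lt_of_ne ?_, ht.2.lt_of_ne ?_⟩, rfl⟩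
        · rintro rfl
          exact hz (Or.inl rfl)
        · rintro rfl
          exact hz (Or.inr rfl)
      have c1 := (hgood i).interior_subset (hgood j) a3 b1 b2 hzi hj
      have c2 := (hgood j).interior_subset (hgood i) b3 a1 a2 (c1 hzi) hi
      exact hne (c1.antisymm c2)
    exact ⟨key i j hne hz.1 hz.2, key j i hne.symm hz.2 hz.1⟩

end Vale.Agent.P128.H861
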