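import Vale.Agent.P128.Bdl.B26
import Vale.Agent.P128.H861.Graph

open MeasureTheory Set Metric Filter
open scoped ENNReal NNReal ContDiff Topology Real

namespace Vale.Agent.P128.H861

open Vale.Agent.P128

variable {Ω : Set ℂ} {g u : ℂ → ℝ} {G : ℂ → ℂ} {K : Set ℂ}

/-- `normalize`, recording that the gradient is only changed on a null set. -/
theorem normalize' (hΩ : IsOpen Ω) (hg : MemLp g ⊤ (volume.restrict Ω))
    (h : IsMinimizer Ω g u G K) :
    ∃ (M : ℝ) (g' u' : ℂ → ℝ) (G' : ℂ → ℂ), Nice Ω g' u' G' K M ∧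
      G =ᵐ[volume.restrict (Ω \ K)] G' ∧ u =ᵐ[volume.restrict Ω] u' ∧
      ∀ C : ℝ, 0 ≤ C → (∀ᵐ z ∂(volume.restrict Ω), |g z| ≤ C) → M ≤ C := by
  obtain ⟨hadm, hmin⟩ := h
  have hK := hadm.measurableSet hΩ
  have hΩK : IsOpen (Ω \ K) := hadm.isOpen_diff hΩ
  set C : ℝ := (eLpNorm g ⊤ (volume.restrict Ω)).toReal with hC
  have hC0 : 0 ≤ C := ENNReal.toReal_nonneg
  have hgC : ∀ᵐ z ∂(volume.restrict Ω), |g z| ≤ C := by
    have h1 : ∀ᵐ z ∂(volume.restrict Ω), ‖g z‖ₑ ≤ eLpNormEssSup g (volume.restrict Ω) :=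
      ae_le_eLpNormEssSup
    filter_upwards [h1] with z hz
    rw [← eLpNorm_exponent_top] at hz
    have := ENNReal.toReal_mono hg.2.ne hz
    rwa [toReal_enorm, Real.norm_eq_abs] at this
  let g₀ := hg.1.mk g
  let u₀ := hadm.memLp.1.mk u
  let G₀ := hadm.grad_memLp.1.mk G
  have hg₀ : Measurable g₀ := hg.1.stronglyMeasurable_mk.measurable
  have hu₀ : Measurable u₀ := hadm.memLp.1.stronglyMeasurable_mk.measurable
  have hG₀ : Measurable G₀ := hadm.grad_memLp.1.stronglyMeasurable_mk.measurable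
  let g' : ℂ → ℝ := Ω.indicator fun z => max (-C) (min C (g₀ z))
  let u' : ℂ → ℝ := Ω.indicator u₀
  let G' : ℂ → ℂ := (Ω \ K).indicator G₀
  have eg : g =ᵐ[volume.restrict Ω] g' := by
    filter_upwards [hgC, hg.1.ae_eq_mk, ae_restrict_mem hΩ.measurableSet] with z h1 h2 h3
    have h4 : g₀ z = g z := h2.symm
    have h5 := abs_le.mp h1
    simp only [g', indicator_of_mem h3, h4]
    rw [min_eq_right h5.2, max_eq_right h5.1]
  have eu : u =ᵐ[volume.restrict Ω] u' := by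
    filter_upwards [hadm.memLp.1.ae_eq_mk, ae_restrict_mem hΩ.measurableSet] with z h2 h3
    simp only [u', indicator_of_mem h3, u₀, h2]
  have eG : G =ᵐ[volume.restrict (Ω \ K)] G' := by
    filter_upwards [hadm.grad_memLp.1.ae_eq_mk, ae_restrict_mem hΩK.measurableSet] with z h2 h3
    simp only [G', indicator_of_mem h3, G₀, h2]
  have hle : ∀ C' : ℝ, 0 ≤ C' → (∀ᵐ z ∂(volume.restrict Ω), |g z| ≤ C') → C ≤ C' := by
    intro C' hC' hb
    rw [hC, eLpNorm_exponent_top]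
    exact ENNReal.toReal_le_of_le_ofReal hC' (eLpNormEssSup_le_of_ae_bound hb)
  refine ⟨C, g', u', G', ?_, eG, eu, hle⟩
  refine
    { isOpen := hΩ
      M_nonneg := hC0
      gm := Measurable.indicator (measurable_const.max (measurable_const.min hg₀)) hΩ.measurableSet
      um := hu₀.indicator hΩ.measurableSet
      Gm := hG₀.indicator hΩK.measurableSet
      gb := ?_
      g0 := fun z hz => indicator_of_notMem hz _
      u0 := fun z hz => indicator_of_notMem hz _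
      G0 := fun z hz => indicator_of_notMem hz _
      min := ⟨?_, ?_⟩ }
  · intro z
    by_cases hz : z ∈ Ω
    · simp only [g', indicator_of_mem hz]
      rw [abs_le]
      exact ⟨le_max_left _ _, max_le (by linarith only [hC0]) (min_le_left _ _)⟩
    · simp only [g', indicator_of_notMem hz]; simpa only [abs_zero] using hC0
  · refine
      { subset := hadm.subset
        relClosed := hadm.relClosed
        finite := hadm.finite
        memLp := hadm.memLp.ae_eq eu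
        grad_memLp := hadm.grad_memLp.ae_eq eG
        weak := hadm.weak.congr
          (ae_mono (Measure.restrict_mono sdiff_subset le_rfl) eu) eG }
  · intro V hV hVc hVΩ w H L hadm' ⟨Cc, hCc, hCV, hsd, hae⟩
    have hVΩ' : V ⊆ Ω := subset_closure.trans hVΩ
    have e1 := energy_congr (K := K) hVΩ' eg eu eG
    have e2 := energy_congr (K := L) hVΩ' eg
      (Filter.EventuallyEq.refl _ w) (Filter.EventuallyEq.refl _ H)
    rw [← e1, ← e2]
    refine hmin V hV hVc hVΩ w H L hadm' ⟨Cc, hCc, hCV, hsd, ?_⟩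
    filter_upwards [hae, eu] with z h1 h2 h3
    rw [h1 h3, h2]

open Q1 in
/-- `exists_MS`, recording that the gradient is only changed on a null set. -/
theorem exists_MS' (hΩ : IsOpen Ω) (hg : MemLp g ⊤ (volume.restrict Ω))
    (hmin : IsMinimizer Ω g u G K) (hred : IsReduced Ω K) {x : ℂ} (hx : x ∈ K) :
    ∃ (g' u' : ℂ → ℝ) (G' : ℂ → ℂ) (M R₀ : ℝ), Q1.MS Ω g' u' G' K M x R₀ ∧
      G =ᵐ[volume.restrict (Ω \ K)] G' := by
  obtain ⟨M, g', u₁, G₁, N, hG₁, -, -⟩ := normalize' hΩ hg hmin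
  obtain ⟨R, hR, hRΩ⟩ := Metric.nhds_basis_closedBall.mem_iff.1
    (N.isOpen.mem_nhds (N.min.1.subset hx))
  obtain ⟨R₁, M₁, h1, h2, h3, h4⟩ := N.exists_bounded hR hRΩ
  have hR₁ : 0 < R₁ := by linarith
  have hMM : M ≤ max 1 M₁ := h3.trans (le_max_right _ _)
  obtain ⟨u', G', N', hc1, hG', hb', -, hGG⟩ := nice_rep N (x := x) (R₁ := R₁) hMM (by
    filter_upwards [h4] with z hz
    exact hz.trans (le_max_right _ _))
  have hsub : closedBall x (4 * min 1 (R₁ / 5)) ⊆ ball x R₁ := by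
    refine closedBall_subset_ball ?_
    have := min_le_right 1 (R₁ / 5)
    linarith only [this, h2, h1]
  refine ⟨g', u', G', max 1 M₁, min 1 (R₁ / 5),
    { N := N'
      red := hred
      R0 := lt_min one_pos (by linarith)
      R1 := min_le_left _ _
      M1 := le_max_left _ _
      sub := hsub.trans ((ball_subset_ball h2.le).trans (ball_subset_closedBall.trans hRΩ))
      bd := fun z hz => hb' z (hsub hz)
      c1 := hc1
      Gu := hG' }, ?_⟩
  exact hG₁.trans (ae_restrict_of_ae hGG)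

/-- The energy of `G` in a closed disk is the one of its normalised version. -/
theorem energy_eq {G' : ℂ → ℂ} {x : ℂ} {r : ℝ} (hr : closedBall x r ⊆ Ω)
    (hG : G =ᵐ[volume.restrict (Ω \ K)] G') (h0 : ∀ z ∉ Ω \ K, G' z = 0) :
    ∫ z in closedBall x r \ K, ‖G z‖ ^ 2 = En G' x r := by
  have e1 : ∫ z in closedBall x r \ K, ‖G z‖ ^ 2 = ∫ z in closedBall x r \ K, ‖G' z‖ ^ 2 := by
    refine integral_congr_ae ?_
    have := ae_mono (Measure.restrict_mono (sdiff_subset_sdiff_left (t := K) hr) le_rfl) hG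
    filter_upwards [this] with z hz
    rw [hz]
  have e2 : ∫ z in closedBall x r \ K, ‖G' z‖ ^ 2 = ∫ z in closedBall x r, ‖G' z‖ ^ 2 := by
    refine (setIntegral_eq_of_subset_of_forall_sdiff_eq_zero isClosed_closedBall.measurableSet
      sdiff_subset ?_).symm
    rintro z ⟨hz1, hz2⟩
    have hzK : z ∈ K := by
      by_contra h
      exact hz2 ⟨hz1, h⟩
    rw [h0 z fun h => h.2 hzK, norm_zero]
    norm_num
  have e3 : ∫ z in closedBall x r, ‖G' z‖ ^ 2 = ∫ z in ball x r, ‖G' z‖ ^ 2 := by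
    refine setIntegral_congr_set ?_
    rw [← ball_union_sphere]
    have : (sphere x r : Set ℂ) =ᵐ[volume] (∅ : Set ℂ) := by
      rw [ae_eq_empty]
      exact Measure.addHaar_sphere _ x r
    simpa using (ae_eq_refl (ball x r)).union this
  rw [e1, e2, e3]
  rfl

theorem hasDensities {g' u' : ℂ → ℝ} {G' : ℂ → ℂ} {M R₀ : ℝ} {x : ℂ}
    (h : Q1.MS Ω g' u' G' K M x R₀) (hG : G =ᵐ[volume.restrict (Ω \ K)] G') {l e : ℝ}
    (hl : ∀ δ > 0, ∃ r₁ > 0, ∀ r, 0 < r → r ≤ r₁ →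
      |En G' x r - e * r| ≤ δ * r ∧ |Hn K x r - l * r| ≤ δ * r) : HasDensities G K x l e := by
  have hR : ∀ᶠ r in 𝓝[>] (0 : ℝ), ∫ z in closedBall x r \ K, ‖G z‖ ^ 2 = En G' x r := by
    filter_upwards [Ioo_mem_nhdsGT h.R0] with r hr
    refine energy_eq ?_ hG h.N.G0
    exact (closedBall_subset_closedBall (by linarith [hr.2, h.R0])).trans h.sub
  constructor
  · rw [Metric.tendsto_nhds]
    intro ε hε
    obtain ⟨r₁, hr₁, h1⟩ := hl (ε / 2) (by positivity)
    filter_upwards [Ioo_mem_nhdsGT hr₁] with r hr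
    obtain ⟨-, h2⟩ := h1 r hr.1 hr.2.le
    have hr0 : 0 < r := hr.1
    have e1 : (μH[1] (K ∩ closedBall x r)).toReal / r - l = (Hn K x r - l * r) / r := by
      unfold Hn; field_simp
    rw [Real.dist_eq, e1, abs_div, abs_of_pos hr0, div_lt_iff₀ hr0]
    nlinarith
  · rw [Metric.tendsto_nhds]
    intro ε hε
    obtain ⟨r₁, hr₁, h1⟩ := hl (ε / 2) (by positivity)
    filter_upwards [Ioo_mem_nhdsGT hr₁, hR] with r hr hE
    obtain ⟨h2, -⟩ := h1 r hr.1 hr.2.le
    have hr0 : 0 < r := hr.1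
    have e1 : En G' x r / r - e = (En G' x r - e * r) / r := by field_simp
    rw [hE, Real.dist_eq, e1, abs_div, abs_of_pos hr0, div_lt_iff₀ hr0]
    nlinarith

theorem IsArc.of_q1 {α a b : ℝ} {γ γ' : ℝ → ℂ} (h : Q1.IsArc α a b γ γ') : IsArc α a b γ γ' :=
  ⟨h.inj, h.deriv, h.ne, h.holder⟩

/-- **The local structure**, with the densities. -/
theorem local_structure (hΩ : IsOpen Ω) (hg : MemLp g ⊤ (volume.restrict Ω))
    (hmin : IsMinimizer Ω g u G K) (hred : IsReduced Ω K) {x : ℂ} (hx : x ∈ K) :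
    (IsRegularPt Ω K x ∧ HasDensities G K x 2 0) ∨ (IsTip Ω K x ∧ HasDensities G K x 1 1) ∨
      (IsTriplePt Ω K x ∧ HasDensities G K x 3 0) := by
  obtain ⟨g', u', G', M, R₀, h, hG⟩ := exists_MS' hΩ hg hmin hred hx
  have hxx : x ∈ K ∩ ball x R₀ := ⟨hx, mem_ball_self h.R0⟩
  have hsub : ∀ r, 0 < r → r < R₀ → closedBall x r ⊆ Ω := fun r hr hr' =>
    (closedBall_subset_closedBall (by linarith [h.R0])).trans h.sub
  have key : ∀ {P : ℝ → ℝ → Prop} {s : ℝ}, 0 < s → (∃ α > 0, ∀ r, 0 < r → r < s → P α r) →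
      ∃ r, 0 < r ∧ closedBall x r ⊆ Ω ∧ ∃ α, 0 < α ∧ P α r := by
    rintro P s hs ⟨α, hα, H⟩
    have h0 : 0 < min s R₀ := lt_min hs h.R0
    refine ⟨min s R₀ / 2, by positivity, hsub _ (by positivity) ?_, α, hα,
      H _ (by positivity) ?_⟩
    · have := min_le_right s R₀
      linarith
    · have := min_le_left s R₀
      linarith
  rcases Q1.types h (fun R ε hR hε => h.close Q1.classified hR hε) hxx with hl | hl | hl
  · left
    obtain ⟨s₀, φ, a, hφ, hr, ha⟩ := Q1.line_branches h hxx hl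
    obtain ⟨r, h1, h2, α, h3, γ, γ', h4, h5⟩ :=
      key (P := fun α r => Q1.ArcThrough α (K ∩ closedBall x r) x) hφ.pos
        (Q1.arcThrough hφ hφ.pos le_rfl hr ha)
    refine ⟨⟨r, h1, h2, α, h3, γ, γ', IsArc.of_q1 h4, h5⟩, hasDensities h hG fun δ hδ => ?_⟩
    obtain ⟨r₁, hr₁, H⟩ := hl δ hδ
    refine ⟨r₁, hr₁, fun r hr hr' => ?_⟩
    obtain ⟨-, h6, h7⟩ := H x ⟨hx, mem_closedBall_self hr₁.le⟩ r hr hr'
    refine ⟨?_, h7⟩
    rw [zero_mul, sub_zero, abs_of_nonneg (En_nonneg G' x r)]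
    exact h6
  · right; right
    obtain ⟨s₀, φ, hφ⟩ := Q1.tripod_branches h hxx hl
    obtain ⟨s₁, a, hs₁, h10, hr, ha⟩ := Q1.tripod_rates h hxx hl hφ
    obtain ⟨r, h1, h2, α, h3, γ, γ', h4, h5⟩ :=
      key (P := fun α r => Q1.TripleJunction α (K ∩ closedBall x r) x) hs₁
        (Q1.tripleJunction hφ hs₁ h10 hr ha)
    refine ⟨⟨r, h1, h2, α, h3, γ, γ', fun i => ⟨IsArc.of_q1 (h4 i).1, (h4 i).2⟩, h5⟩,
      hasDensities h hG fun δ hδ => ?_⟩
    obtain ⟨r₁, hr₁, H⟩ := hl.1 δ hδ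
    refine ⟨r₁, hr₁, fun r hr hr' => ?_⟩
    obtain ⟨-, h6, h7⟩ := H r hr hr'
    refine ⟨?_, h7⟩
    rw [zero_mul, sub_zero, abs_of_nonneg (En_nonneg G' x r)]
    exact h6
  · right; left
    obtain ⟨s₀, φ, hφ⟩ := Q1.tip_branches h hxx hl
    obtain ⟨s₁, a, hs₁, h10, hr⟩ := Q1.tip_rates h hxx hl hφ
    obtain ⟨r, h1, h2, α, h3, γ, γ', h4, h5⟩ :=
      key (P := fun α r => Q1.ArcEnding α (K ∩ closedBall x r) x) hs₁
        (Q1.arcEnding hφ hs₁ h10 hr)
    refine ⟨⟨r, h1, h2, α, h3, γ, γ', IsArc.of_q1 h4, h5⟩, hasDensities h hG fun δ hδ => ?_⟩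
    obtain ⟨r₁, hr₁, H⟩ := hl.1 δ hδ
    refine ⟨r₁, hr₁, fun r hr hr' => ?_⟩
    obtain ⟨-, h6, h7⟩ := H r hr hr'
    rw [one_mul]
    exact ⟨h6, h7⟩

end Vale.Agent.P128.H861
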