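import Vale.Agent.P128.H861.Arcs

open Set Metric Filter
open scoped Topology

namespace Vale.Agent.P128.H861

variable {α a b : ℝ} {γ γ' : ℝ → ℂ}

theorem IsArc.mono_exp (h : IsArc α a b γ γ') {β : ℝ} (hβ : 0 < β) (hβα : β ≤ α) :
    IsArc β a b γ γ' := by
  refine ⟨h.inj, h.deriv, h.ne, ?_⟩
  obtain ⟨C, hC⟩ := h.holder
  refine ⟨|C| * |b - a| ^ (α - β), fun s hs t ht => (hC s hs t ht).trans ?_⟩
  have h1 : |s - t| ≤ |b - a| := by
    rw [abs_of_nonneg (show (0 : ℝ) ≤ b - a by linarith [hs.1, hs.2])]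
    exact abs_le.2 ⟨by linarith [hs.1, ht.2], by linarith [hs.2, ht.1]⟩
  have h2 : |s - t| ^ α = |s - t| ^ (α - β) * |s - t| ^ β := by
    rcases (abs_nonneg (s - t)).eq_or_lt with h0 | h0
    · rw [← h0, Real.zero_rpow hβ.ne', Real.zero_rpow (by linarith), mul_zero]
    · rw [← Real.rpow_add h0]; congr 1; ring
  rw [h2]
  calc C * (|s - t| ^ (α - β) * |s - t| ^ β) ≤ |C| * (|s - t| ^ (α - β) * |s - t| ^ β) :=
        mul_le_mul_of_nonneg_right (le_abs_self C) (by positivity)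
    _ ≤ |C| * (|b - a| ^ (α - β) * |s - t| ^ β) := by
        have : |s - t| ^ (α - β) ≤ |b - a| ^ (α - β) :=
          Real.rpow_le_rpow (abs_nonneg _) h1 (by linarith)
        gcongr
    _ = _ := by ring

/-- The reversed arc. -/
theorem IsArc.reverse (h : IsArc α a b γ γ') :
    IsArc α (-b) (-a) (fun t => γ (-t)) (fun t => -γ' (-t)) := by
  have hm : ∀ {t}, t ∈ Icc (-b) (-a) → -t ∈ Icc a b := fun {t} ht =>
    ⟨by linarith [ht.2], by linarith [ht.1]⟩
  refine ⟨fun s hs t ht hst => ?_, fun t ht => ?_, fun t ht => neg_ne_zero.2 (h.ne _ (hm ht)), ?_⟩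
  · have := h.inj (hm hs) (hm ht) hst
    linarith
  · have e1 := (h.deriv (-t) (hm ht)).scomp t
      ((hasDerivAt_neg t).hasDerivWithinAt (s := Icc (-b) (-a))) (fun s hs => hm hs)
    simpa [Function.comp_def] using e1
  · obtain ⟨C, hC⟩ := h.holder
    refine ⟨C, fun s hs t ht => ?_⟩
    have e1 := hC _ (hm hs) _ (hm ht)
    have e2 : |-s - -t| = |s - t| := by rw [← abs_neg]; congr 1; ring
    rw [e2] at e1
    have e3 : -γ' (-s) - -γ' (-t) = -(γ' (-s) - γ' (-t)) := by ring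
    simp only [e3, norm_neg]
    exact e1

/-- The affine reparametrisation of a subarc over `[0, 1]`. -/
theorem IsArc.sub (h : IsArc α a b γ γ') {c d : ℝ} (hc : a ≤ c) (hcd : c < d)
    (hd : d ≤ b) :
    IsArc α 0 1 (fun t => γ (c + (d - c) * t)) (fun t => ((d - c : ℝ) : ℂ) * γ' (c + (d - c) * t)) := by
  have hdc : 0 < d - c := by linarith
  have hm : ∀ {t}, t ∈ Icc (0 : ℝ) 1 → c + (d - c) * t ∈ Icc a b := fun {t} ht =>
    ⟨by nlinarith [ht.1], by nlinarith [ht.2]⟩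
  refine ⟨fun s hs t ht hst => ?_, fun t ht => ?_, fun t ht => ?_, ?_⟩
  · have e1 := h.inj (hm hs) (hm ht) hst
    have e2 : (d - c) * s = (d - c) * t := by linarith
    exact mul_left_cancel₀ hdc.ne' e2
  · have e0 : HasDerivAt (fun t : ℝ => c + (d - c) * t) (d - c) t := by
      have := ((hasDerivAt_id t).const_mul (d - c)).const_add c
      simpa using this
    have e1 := (h.deriv _ (hm ht)).scomp t (e0.hasDerivWithinAt (s := Icc 0 1)) (fun s hs => hm hs)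
    rw [Complex.real_smul] at e1
    exact e1
  · exact mul_ne_zero (by exact_mod_cast hdc.ne') (h.ne _ (hm ht))
  · obtain ⟨C, hC⟩ := h.holder
    refine ⟨(d - c) * (C * (d - c) ^ α), fun s hs t ht => ?_⟩
    have e1 := hC _ (hm hs) _ (hm ht)
    have e2 : |c + (d - c) * s - (c + (d - c) * t)| = (d - c) * |s - t| := by
      rw [← abs_of_pos hdc, ← abs_mul]
      congr 1
      rw [abs_of_pos hdc]; ring
    rw [e2, Real.mul_rpow hdc.le (abs_nonneg _)] at e1
    rw [← mul_sub, norm_mul, Complex.norm_real, Real.norm_of_nonneg hdc.le]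
    calc (d - c) * ‖γ' (c + (d - c) * s) - γ' (c + (d - c) * t)‖
        ≤ (d - c) * (C * ((d - c) ^ α * |s - t| ^ α)) := by gcongr
      _ = _ := by ring

theorem image_sub_Icc {c d : ℝ} (hcd : c < d) :
    (fun t => γ (c + (d - c) * t)) '' Icc 0 1 = γ '' Icc c d := by
  have hdc : 0 < d - c := by linarith
  ext z
  constructor
  · rintro ⟨t, ht, rfl⟩
    exact ⟨_, ⟨by nlinarith [ht.1], by nlinarith [ht.2]⟩, rfl⟩
  · rintro ⟨t, ht, rfl⟩
    refine ⟨(t - c) / (d - c), ⟨div_nonneg (by linarith [ht.1]) hdc.le, ?_⟩, ?_⟩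
    · rw [div_le_one hdc]; linarith [ht.2]
    · simp only
      congr 1
      field_simp
      ring

theorem image_sub_Ioo {c d : ℝ} (hcd : c < d) :
    (fun t => γ (c + (d - c) * t)) '' Ioo 0 1 = γ '' Ioo c d := by
  have hdc : 0 < d - c := by linarith
  ext z
  constructor
  · rintro ⟨t, ht, rfl⟩
    exact ⟨_, ⟨by nlinarith [ht.1], by nlinarith [ht.2]⟩, rfl⟩
  · rintro ⟨t, ht, rfl⟩
    refine ⟨(t - c) / (d - c), ⟨div_pos (by linarith [ht.1]) hdc, ?_⟩, ?_⟩
    · rw [div_lt_one hdc]; linarith [ht.2]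
    · simp only
      congr 1
      field_simp
      ring

/-- The part of an arc after the parameter `t₀` is a ray at this point. -/
theorem IsArc.ray_right (h : IsArc α a b γ γ') (hα : 0 < α) {t₀ : ℝ} (ha : a ≤ t₀) (hb : t₀ < b) :
    Ray (γ '' Icc t₀ b) (γ t₀) := by
  have ht₀ : t₀ ∈ Icc a b := ⟨ha, hb.le⟩
  have hv : 0 < ‖γ' t₀‖ := norm_pos_iff.2 (h.ne t₀ ht₀)
  obtain ⟨δ, hδ, h1⟩ := h.close hα ht₀ (show (0 : ℝ) < ‖γ' t₀‖ / 4 by positivity)
  have himg : γ '' Icc t₀ b = (fun t => γ (t₀ + t)) '' Icc 0 (b - t₀) := by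
    ext z
    constructor
    · rintro ⟨t, ht, rfl⟩
      exact ⟨t - t₀, ⟨by linarith [ht.1], by linarith [ht.2]⟩, by simp⟩
    · rintro ⟨t, ht, rfl⟩
      exact ⟨t₀ + t, ⟨by linarith [ht.1], by linarith [ht.2]⟩, rfl⟩
  have hm : ∀ {t}, t ∈ Icc 0 (b - t₀) → t₀ + t ∈ Icc a b := fun {t} ht =>
    ⟨by linarith [ht.1], by linarith [ht.2]⟩
  have h0 : 0 < b - t₀ := by linarith
  have key := ray_of_mono (γ := fun t => γ (t₀ + t)) (b := b - t₀) (δ := min δ (b - t₀))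
    (lt_min hδ h0) (min_le_right _ _)
    (h.continuousOn.comp (by fun_prop) fun t ht => hm ht)
    (fun s hs t ht hst => by have := h.inj (hm hs) (hm ht) hst; linarith)
    (mono_of_close (v := γ' t₀) (norm_pos_iff.1 hv) fun s hs t ht => by
      have hs' : s ∈ Icc 0 (b - t₀) := ⟨hs.1, hs.2.trans (min_le_right _ _)⟩
      have ht' : t ∈ Icc 0 (b - t₀) := ⟨ht.1, ht.2.trans (min_le_right _ _)⟩
      have e1 := h1 _ (hm hs') _ (hm ht')
        (by rw [add_sub_cancel_left, abs_of_nonneg hs.1]; exact hs.2.trans (min_le_left _ _))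
        (by rw [add_sub_cancel_left, abs_of_nonneg ht.1]; exact ht.2.trans (min_le_left _ _))
      have e2 : t₀ + t - (t₀ + s) = t - s := by ring
      rw [e2] at e1
      exact e1)
  simp only [add_zero] at key
  rw [himg]
  exact key

/-- The part of an arc before the parameter `t₀` is a ray at this point. -/
theorem IsArc.ray_left (h : IsArc α a b γ γ') (hα : 0 < α) {t₀ : ℝ} (ha : a < t₀) (hb : t₀ ≤ b) :
    Ray (γ '' Icc a t₀) (γ t₀) := by
  have h1 := h.reverse.ray_right hα (t₀ := -t₀) (by linarith) (by linarith)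
  have himg : (fun t => γ (-t)) '' Icc (-t₀) (-a) = γ '' Icc a t₀ := by
    ext z
    constructor
    · rintro ⟨t, ht, rfl⟩
      exact ⟨-t, ⟨by linarith [ht.2], by linarith [ht.1]⟩, rfl⟩
    · rintro ⟨t, ht, rfl⟩
      exact ⟨-t, ⟨by linarith [ht.2], by linarith [ht.1]⟩, by simp⟩
  rw [himg] at h1
  simpa using h1

theorem IsArc.inter_left_right (h : IsArc α a b γ γ') {t₀ : ℝ} (ha : a ≤ t₀) (hb : t₀ ≤ b) :
    γ '' Icc a t₀ ∩ γ '' Icc t₀ b ⊆ {γ t₀} := by
  rintro _ ⟨⟨s, hs, rfl⟩, ⟨t, ht, hst⟩⟩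
  have h1 := h.inj ⟨ha.trans ht.1, ht.2⟩ ⟨hs.1, hs.2.trans hb⟩ hst
  have h2 : s = t₀ := le_antisymm hs.2 (by rw [← h1]; exact ht.1)
  rw [h2]; rfl

/-- Near an interior point of an arc, a set which agrees with the arc is of type `Star 2`. -/
theorem IsArc.star_two (h : IsArc α a b γ γ') (hα : 0 < α) {t₀ : ℝ} (ha : a < t₀) (hb : t₀ < b)
    {K : Set ℂ} (hK : ∀ᶠ z in 𝓝 (γ t₀), (z ∈ K ↔ z ∈ γ '' Icc a b)) : Star 2 K (γ t₀) := by
  refine ⟨![γ '' Icc a t₀, γ '' Icc t₀ b], ?_, ?_, ?_⟩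
  · intro i
    fin_cases i
    · exact h.ray_left hα ha hb.le
    · exact h.ray_right hα ha.le hb
  · intro i j hij
    fin_cases i <;> fin_cases j
    · exact absurd rfl hij
    · exact h.inter_left_right ha.le hb.le
    · exact (inter_comm _ _).subset.trans (h.inter_left_right ha.le hb.le)
    · exact absurd rfl hij
  · filter_upwards [hK] with z hz
    rw [hz, Fin.exists_fin_two, ← Icc_union_Icc_eq_Icc ha.le hb.le, image_union]
    rfl

/-- Near `x`, the set `K` is a union of `m` arcs starting at `x` and meeting only there. -/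
def Fan (m : ℕ) (K : Set ℂ) (x : ℂ) : Prop :=
  ∃ (α : ℝ) (γ γ' : Fin m → ℝ → ℂ), 0 < α ∧ (∀ i, IsArc α 0 1 (γ i) (γ' i)) ∧
    (∀ i, γ i 0 = x) ∧ (∀ i j, i ≠ j → γ i '' Icc 0 1 ∩ γ j '' Icc 0 1 ⊆ {x}) ∧
    ∀ᶠ z in 𝓝 x, (z ∈ K ↔ ∃ i, z ∈ γ i '' Icc 0 1)

theorem Fan.star {m : ℕ} {K : Set ℂ} {x : ℂ} (h : Fan m K x) : Star m K x := by
  obtain ⟨α, γ, γ', hα, h1, h2, h3, h4⟩ := h
  refine ⟨fun i => γ i '' Icc 0 1, fun i => ?_, h3, h4⟩
  have := (h1 i).ray_right hα (t₀ := 0) le_rfl one_pos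
  rw [h2 i] at this
  exact this

theorem eventually_mem_inter_closedBall {K : Set ℂ} {x : ℂ} {r : ℝ} (hr : 0 < r) {A : Set ℂ}
    (hA : K ∩ closedBall x r = A) : ∀ᶠ z in 𝓝 x, (z ∈ K ↔ z ∈ A) := by
  filter_upwards [closedBall_mem_nhds x hr] with z hz
  rw [← hA]
  exact ⟨fun h => ⟨h, hz⟩, fun h => h.1⟩

theorem ArcThrough.fan {K : Set ℂ} {x : ℂ} {r : ℝ} (hr : 0 < r) (hα : 0 < α)
    (h : ArcThrough α (K ∩ closedBall x r) x) : Fan 2 K x := by
  obtain ⟨γ, γ', h1, h2, h3⟩ := h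
  have e1 := h1.sub (c := 0) (d := 1) (by norm_num) one_pos le_rfl
  have e2 := h1.reverse.sub (c := 0) (d := 1) (by norm_num) one_pos (by norm_num)
  have i1 := image_sub_Icc (γ := γ) (c := 0) (d := 1) one_pos
  have i2 := image_sub_Icc (γ := fun t => γ (-t)) (c := 0) (d := 1) one_pos
  have i3 : (fun t => γ (-t)) '' Icc 0 1 = γ '' Icc (-1) 0 := by
    ext z
    constructor
    · rintro ⟨t, ht, rfl⟩
      exact ⟨-t, ⟨by linarith [ht.2], by linarith [ht.1]⟩, rfl⟩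
    · rintro ⟨t, ht, rfl⟩
      exact ⟨-t, ⟨by linarith [ht.2], by linarith [ht.1]⟩, by simp⟩
  have hint : γ '' Icc (-1) 0 ∩ γ '' Icc 0 1 ⊆ {x} := by
    have := h1.inter_left_right (t₀ := 0) (by norm_num) (by norm_num)
    rwa [h2] at this
  refine ⟨α, ![fun t => γ (0 + (1 - 0) * t), fun t => γ (-(0 + (1 - 0) * t))],
    ![fun t => (((1 : ℝ) - (0 : ℝ) : ℝ) : ℂ) * γ' (0 + (1 - 0) * t),
      fun t => (((1 : ℝ) - (0 : ℝ) : ℝ) : ℂ) * -γ' (-(0 + (1 - 0) * t))], hα, ?_, ?_, ?_, ?_⟩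
  · intro i
    fin_cases i
    · exact e1
    · exact e2
  · intro i
    fin_cases i <;> simp [h2]
  · intro i j hij
    fin_cases i <;> fin_cases j
    · exact absurd rfl hij
    · change (fun t => γ (0 + (1 - 0) * t)) '' Icc 0 1 ∩
        (fun t => γ (-(0 + (1 - 0) * t))) '' Icc 0 1 ⊆ {x}
      rw [i1, i2, i3, inter_comm]
      exact hint
    · change (fun t => γ (-(0 + (1 - 0) * t))) '' Icc 0 1 ∩
        (fun t => γ (0 + (1 - 0) * t)) '' Icc 0 1 ⊆ {x}
      rw [i1, i2, i3]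
      exact hint
    · exact absurd rfl hij
  · filter_upwards [eventually_mem_inter_closedBall hr h3] with z hz
    rw [hz, Fin.exists_fin_two, ← Icc_union_Icc_eq_Icc (show (-1 : ℝ) ≤ 0 by norm_num)
      zero_le_one, image_union]
    change _ ↔ z ∈ (fun t => γ (0 + (1 - 0) * t)) '' Icc 0 1 ∨
      z ∈ (fun t => γ (-(0 + (1 - 0) * t))) '' Icc 0 1
    rw [i1, i2, i3]
    exact or_comm

theorem ArcEnding.fan {K : Set ℂ} {x : ℂ} {r : ℝ} (hr : 0 < r) (hα : 0 < α)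
    (h : ArcEnding α (K ∩ closedBall x r) x) : Fan 1 K x := by
  obtain ⟨γ, γ', h1, h2, h3⟩ := h
  refine ⟨α, fun _ => γ, fun _ => γ', hα, fun _ => h1, fun _ => h2,
    fun i j hij => absurd (Subsingleton.elim i j) hij, ?_⟩
  filter_upwards [eventually_mem_inter_closedBall hr h3] with z hz
  rw [hz]
  simp

theorem TripleJunction.fan {K : Set ℂ} {x : ℂ} {r : ℝ} (hr : 0 < r) (hα : 0 < α)
    (h : TripleJunction α (K ∩ closedBall x r) x) : Fan 3 K x := by
  obtain ⟨γ, γ', h1, h2, h3, -⟩ := h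
  refine ⟨α, γ, γ', hα, fun i => (h1 i).1, fun i => (h1 i).2, fun i j hij => (h3 i j hij).subset,
    ?_⟩
  filter_upwards [eventually_mem_inter_closedBall hr h2] with z hz
  rw [hz, mem_iUnion]

theorem IsArc.compact_image (h : IsArc α a b γ γ') {c d : ℝ} (hc : a ≤ c) (hd : d ≤ b) :
    IsCompact (γ '' Icc c d) :=
  isCompact_Icc.image_of_continuousOn (h.continuousOn.mono (Icc_subset_Icc hc hd))

/-- Near the centre of a fan, all other points are of type `Star 2`. -/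
theorem Fan.punctured {m : ℕ} {K : Set ℂ} {x : ℂ} (h : Fan m K x) :
    ∀ᶠ y in 𝓝[≠] x, y ∈ K → Star 2 K y := by
  obtain ⟨α, γ, γ', hα, h1, h2, h3, h4⟩ := h
  have h5 : ∀ᶠ y in 𝓝[≠] x, ∀ i, y ≠ γ i 1 := by
    refine eventually_all.2 fun i => ?_
    have hne : x ≠ γ i 1 := by
      rw [← h2 i]
      intro he
      have := (h1 i).inj ⟨le_rfl, zero_le_one⟩ ⟨zero_le_one, le_rfl⟩ he
      exact zero_ne_one this
    exact eventually_nhdsWithin_of_eventually_nhds (eventually_ne_nhds hne)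
  filter_upwards [eventually_nhdsWithin_of_eventually_nhds h4.eventually_nhds, h5,
    self_mem_nhdsWithin] with y h6 h7 h8 hyK
  obtain ⟨i, t, ht, hty⟩ := h6.self_of_nhds.1 hyK
  have ht0 : 0 < t := by
    refine ht.1.lt_of_ne ?_
    rintro rfl
    exact h8 (by rw [← hty]; exact h2 i)
  have ht1 : t < 1 := by
    refine ht.2.lt_of_ne ?_
    rintro rfl
    exact h7 i hty.symm
  have h9 : ∀ᶠ z in 𝓝 y, ∀ j, j ≠ i → z ∉ γ j '' Icc 0 1 := by
    refine eventually_all.2 fun j => ?_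
    by_cases hj : j = i
    · exact Eventually.of_forall fun z hz => absurd hj hz
    · have hyj : y ∉ γ j '' Icc 0 1 := fun hyj =>
        h8 (h3 j i hj ⟨hyj, ⟨t, ht, hty⟩⟩)
      filter_upwards [((h1 j).compact_image le_rfl le_rfl).isClosed.isOpen_compl.mem_nhds hyj]
        with z hz _
      exact hz
  rw [← hty] at h6 h9 ⊢
  refine (h1 i).star_two hα ht0 ht1 ?_
  filter_upwards [h6, h9] with z hz hz'
  rw [hz]
  constructor
  · rintro ⟨j, hj⟩
    by_cases hji : j = i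
    · rwa [hji] at hj
    · exact absurd hj (hz' j hji)
  · exact fun hz => ⟨i, hz⟩

end Vale.Agent.P128.H861
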