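import Vale.Agent.P128.H861.Unif1

/-! Blow-ups of sequences of minimizers. -/

open MeasureTheory Set Metric Filter
open scoped ENNReal NNReal ContDiff Topology Real

namespace Vale.Agent.P128.Q

open Vale.Agent.P128
open Vale.Agent.P128.GM (LocLip genergy IsGlobalMin W12loc)

theorem blowup_unif {Ωs Ks : ℕ → Set ℂ} {gs us : ℕ → ℂ → ℝ} {xs : ℕ → ℂ} {M R₀ : ℝ}
    (S : ∀ j, MS (Ωs j) (gs j) (us j) (Ks j) M (xs j) R₀) {x : ℕ → ℂ} {r : ℕ → ℝ}
    (hx : ∀ j, x j ∈ Ks j ∩ closedBall (xs j) (R₀ / 2)) (hr : ∀ j, 0 < r j)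
    (hrρ : ∀ j, r j < rhoU M R₀) (h0 : Tendsto r atTop (𝓝 0)) :
    ∃ φ : ℕ → ℕ, StrictMono φ ∧ ∃ (u₀ : ℂ → ℝ) (K₀ : Set ℂ),
      IsGlobalMin u₀ (grad u₀) K₀ ∧ ContDiffOn ℝ 1 u₀ K₀ᶜ ∧ IsReduced univ K₀ ∧ (0 : ℂ) ∈ K₀ ∧
      (∀ z ∈ K₀, ∀ ε > 0, ∀ᶠ j in atTop, ∃ y ∈ Ks (φ j),
        dist y (x (φ j) + r (φ j) * z) < ε * r (φ j)) ∧
      (∀ C : Set ℂ, IsCompact C → C ⊆ K₀ᶜ →
        ∀ᶠ j in atTop, ∀ z ∈ C, x (φ j) + r (φ j) * z ∉ Ks (φ j)) ∧
      (∀ (z : ℂ) (s ε : ℝ), 0 < s → 0 < ε → ∀ᶠ j in atTop,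
        (dir u₀ z s - ε) * r (φ j) ≤ dir (us (φ j)) (x (φ j) + r (φ j) * z) (r (φ j) * s)) ∧
      (∀ (z : ℂ) (s ε : ℝ), 0 < s → 0 < ε → ∀ᶠ j in atTop,
        (len K₀ z s - ε) * r (φ j) ≤ len (Ks (φ j)) (x (φ j) + r (φ j) * z) (r (φ j) * s)) ∧
      ∀ (z : ℂ) (s ε : ℝ), 0 < s → 0 < ε → ∀ᶠ j in atTop,
        dir (us (φ j)) (x (φ j) + r (φ j) * z) (r (φ j) * s) + len (Ks (φ j)) (x (φ j) + r (φ j) * z) (r (φ j) * s) ≤
          (dir u₀ z s + (μH[1] (K₀ ∩ closedBall z s)).toReal + ε) * r (φ j) := by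
  obtain ⟨c₁, hc₁, hge⟩ := exists_grad_est
  have hρ : 0 < rhoU M R₀ := rhoU_pos (S 0).one_le (S 0).pos
  have hS : Seq c₁ (fun j => rhoU M R₀ / r j) (fun j => 4 * π * M ^ 2 * r j)
      (fun j => blow (us j) (x j) (r j)) (fun j => blowSet (Ks j) (x j) (r j)) := by
    refine ⟨hc₁, fun j => (S j).amin_unif hc₁ (hge (S j)) _ (hx j) _ (hr j) (hrρ j), ?_, ?_,
      fun j => ?_⟩
    · have h1 : Tendsto r atTop (𝓝[>] 0) :=
        tendsto_nhdsWithin_iff.2 ⟨h0, Eventually.of_forall fun j => hr _⟩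
      have h2 := (tendsto_inv_nhdsGT_zero.comp h1).const_mul_atTop hρ
      refine h2.congr fun j => ?_
      rw [Function.comp_apply, div_eq_mul_inv]
    · have h1 := h0.const_mul (4 * π * M ^ 2)
      rwa [mul_zero] at h1
    · change x j + r j * 0 ∈ Ks j
      rw [mul_zero, add_zero]
      exact (hx _).1
  obtain ⟨φ, hφ, u₀, K₀, c, hL⟩ := hS.exists_lim
  have hS' := hS.comp hφ
  refine ⟨φ, hφ, u₀, K₀, hL.globalMin hS',
    hL.smooth, hL.reduced hS', hL.zero_mem hS', ?_, ?_, ?_, ?_, ?_⟩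
  · intro z hz ε hε
    filter_upwards [hL.near z hz ε hε] with j hj
    obtain ⟨y, hy, hd⟩ := hj
    refine ⟨x (φ j) + r (φ j) * y, hy, ?_⟩
    rw [dist_add_left, dist_eq_norm, ← mul_sub, norm_mul, Complex.norm_real,
      Real.norm_of_nonneg (hr _).le, ← dist_eq_norm, mul_comm]
    exact mul_lt_mul_of_pos_right hd (hr _)
  · intro C hC hCK
    filter_upwards [hL.far C hC hCK] with j hj y hy hmem
    exact Set.disjoint_left.1 hj hy hmem
  · intro z s ε _ hε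
    filter_upwards [hL.dir_le hS' z s hε] with j hj
    have h1 : dir u₀ z s - ε < dir (blow (us (φ j)) (x (φ j)) (r (φ j))) z s := hj
    rw [dir_blow (us (φ j)) _ z (hr _) s, lt_div_iff₀ (hr _)] at h1
    exact h1.le
  · intro z s ε hs hε
    filter_upwards [hL.len_lower hS' z hs hε] with j hj
    have h1 : len K₀ z s - ε ≤ len (blowSet (Ks (φ j)) (x (φ j)) (r (φ j))) z s := hj
    rwa [len_blow (Ks (φ j)) _ z (hr _) s, le_div_iff₀ (hr _)] at h1
  · intro z s ε hs hε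
    obtain ⟨t, hst, hfin, ht⟩ := exists_radius hL.closed (fun r => hL.len_fin hS' z r)
      (fun r => hL.int hS' z r) s (half_pos hε)
    have hup := hL.upper hS' (x := z) (r := 0) le_rfl (w := u₀) (L := K₀) (C := ∅) hL.closed
      (GM.LocLip.of_contDiffOn hL.closed.isOpen_compl hL.smooth) (fun s => hL.int hS' z s)
      (fun s => hL.len_fin hS' z s) isCompact_empty (empty_subset _) (fun _ _ => Iff.rfl)
      (fun _ _ _ => rfl) (fun p q _ _ h => h) (s := t) (hs.trans hst) hfin (half_pos hε)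
    filter_upwards [hup, hS'.Rinf.eventually_gt_atTop (‖z‖ + t)] with j hj hR
    have hA := hS'.am j
    have hsub : ball z t ⊆ ball 0 (((fun j => rhoU M R₀ / r j) ∘ φ) j) := by
      refine ball_subset_ball' ?_
      rw [dist_zero_right]
      linarith
    have h1 : dir (blow (us (φ j)) (x (φ j)) (r (φ j))) z s ≤
        dir (blow (us (φ j)) (x (φ j)) (r (φ j))) z t := by
      refine setIntegral_mono_set (hA.int.mono_set hsub) (ae_of_all _ fun y => sq_nonneg _) ?_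
      exact (ball_subset_ball hst.le).eventuallyLE
    have h2 : len (blowSet (Ks (φ j)) (x (φ j)) (r (φ j))) z s ≤
        len (blowSet (Ks (φ j)) (x (φ j)) (r (φ j))) z t := by
      refine ENNReal.toReal_mono ?_ (measure_mono
        (inter_subset_inter_right _ (ball_subset_ball hst.le)))
      exact ((measure_mono (inter_subset_inter_right _ hsub)).trans_lt hA.fin).ne
    have h3 : dir (blow (us (φ j)) (x (φ j)) (r (φ j))) z t +
        len (blowSet (Ks (φ j)) (x (φ j)) (r (φ j))) z t ≤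
          dir u₀ z t + len K₀ z t + ε / 2 := hj
    rw [dir_blow (us (φ j)) _ z (hr _)] at h1
    rw [len_blow (Ks (φ j)) _ z (hr _)] at h2
    have h4 : dir (us (φ j)) (x (φ j) + r (φ j) * z) (r (φ j) * s) / r (φ j) +
        len (Ks (φ j)) (x (φ j) + r (φ j) * z) (r (φ j) * s) / r (φ j) ≤
          dir u₀ z s + (μH[1] (K₀ ∩ closedBall z s)).toReal + ε := by linarith
    rwa [← add_div, div_le_iff₀ (hr _)] at h4

end Vale.Agent.P128.Q
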