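import Vale.Agent.P128.H861.Unif2

/-! Uniform closeness to the models. -/

open MeasureTheory Set Metric Filter InnerProductSpace
open scoped ENNReal NNReal Topology Real ContDiff

namespace Vale.Agent.P128.Q1

open Vale.Agent.P128
open Vale.Agent.P128.GM (IsGlobalMin)

theorem close_unif (hc : Classified) {M R₀ : ℝ} {R ε : ℝ} (hR : 1 ≤ R) (hε : 0 < ε) :
    ∃ r₀ > 0, ∀ (Ω : Set ℂ) (g u : ℂ → ℝ) (G : ℂ → ℂ) (K : Set ℂ) (x₀ : ℂ),
      MS Ω g u G K M x₀ R₀ → ∀ y ∈ K ∩ closedBall x₀ R₀, ∀ r, 0 < r →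
        r ≤ r₀ → ∃ L F, IsModel L F ∧ Close G K y r L F R ε := by
  classical
  by_contra hcon
  push Not at hcon
  have hRpos : 0 < R := by linarith
  obtain ⟨Ω₁, g₁, u₁, G₁, K₁, z₁, h₁, -⟩ := hcon 1 one_pos
  have hR0 := h₁.R0
  have hM1 := h₁.M1
  have hρ := Q.rhoU_pos hM1 (R₀ := 2 * R₀) (by linarith)
  obtain ⟨ρ₁, hρ₁⟩ : ∃ ρ₁, ρ₁ = Q.rhoU M (2 * R₀) := ⟨_, rfl⟩
  rw [← hρ₁] at hρ
  choose Ωs gs us Gs Ks xs h y hy r hr0 hr1 hbad using fun j : ℕ =>
    hcon (ρ₁ / 2 * (1 / ((j : ℝ) + 1))) (by positivity)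
  have hrt : Tendsto r atTop (𝓝 0) := by
    have h2 : Tendsto (fun j : ℕ => ρ₁ / 2 * (1 / ((j : ℝ) + 1))) atTop (𝓝 (ρ₁ / 2 * 0)) :=
      tendsto_one_div_add_atTop_nhds_zero_nat.const_mul _
    rw [mul_zero] at h2
    exact squeeze_zero (fun j => (hr0 j).le) hr1 h2
  have hrρ : ∀ j, r j < Q.rhoU M (2 * R₀) := fun j => by
    have h2 : 1 / ((j : ℝ) + 1) ≤ 1 := by
      rw [div_le_one (by positivity)]
      have := Nat.cast_nonneg (α := ℝ) j
      linarith
    have h3 := hr1 j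
    rw [← hρ₁]
    nlinarith
  obtain ⟨φ, hφ, u₀, K₀, hg, hs, hred, h0, hnear, hfar, hdir, hlen, hup⟩ :=
    Q.blowup_unif (fun j => (h j).toQ) (x := y) (r := r)
      (fun j => by
        have e : 2 * R₀ / 2 = R₀ := by ring
        rw [e]
        exact hy j) hr0 hrρ hrt
  obtain ⟨F, hF, hFc, hFd, hmod⟩ := exists_model hc hg hs hred h0
  have hfinK₀ : ∀ s, μH[1] (K₀ ∩ ball 0 s) < ⊤ := fun s => (hg.len_fin 0 s).lt_top
  have hHc := model_Hn_cont hmod hfinK₀
  have hlenH : ∀ s, Q.len K₀ 0 s = Hn K₀ 0 s := fun s => (model_Hn hmod s).symm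
  have hφt : Tendsto φ atTop atTop := hφ.tendsto_atTop
  have hrt' : Tendsto (fun j => r (φ j)) atTop (𝓝 0) := hrt.comp hφt
  have hzero : ∀ j, y (φ j) + r (φ j) * (0 : ℂ) = y (φ j) := fun j => by ring
  -- the disks are contained in `Ω`
  have hsub : ∀ s : ℝ, 0 < s → ∀ᶠ j in atTop, ball (y (φ j)) (r (φ j) * s) ⊆ Ωs (φ j) := by
    intro s hs0
    have h1 : ∀ᶠ j in atTop, r (φ j) < R₀ / s :=
      hrt'.eventually (gt_mem_nhds (by positivity))
    filter_upwards [h1] with j hj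
    rw [lt_div_iff₀ hs0] at hj
    refine (ball_subset_closedBall.trans (closedBall_subset_closedBall' ?_)).trans (h (φ j)).sub
    have := mem_closedBall.mp (hy (φ j)).2
    linarith
  have hfinK : ∀ (i : ℕ) (z : ℂ) (s : ℝ), μH[1] (Ks i ∩ closedBall z s) ≠ ⊤ := fun i z s =>
    ((measure_mono inter_subset_left).trans_lt (h i).N.min.1.finite).ne
  have hlenle : ∀ (i : ℕ) (z : ℂ) (s t : ℝ), s ≤ t → Q.len (Ks i) z s ≤ Hn (Ks i) z t :=
    fun i z s t hst => ENNReal.toReal_mono (hfinK i z t)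
      (measure_mono (inter_subset_inter_right _ (ball_subset_closedBall.trans
        (closedBall_subset_closedBall hst))))
  have hHlt : ∀ (i : ℕ) (z : ℂ) (s t : ℝ), s < t → Hn (Ks i) z s ≤ Q.len (Ks i) z t :=
    fun i z s t hst =>
    ENNReal.toReal_mono (((measure_mono inter_subset_left).trans_lt (h i).N.min.1.finite).ne)
      (measure_mono (inter_subset_inter_right _ (closedBall_subset_ball hst)))
  -- energies
  have hE : ∀ᶠ j in atTop, ∀ s ∈ Icc (1 / R) R,
      |En (Gs (φ j)) (y (φ j)) (s * r (φ j)) / r (φ j) - F s| ≤ ε := by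
    refine unif_of_mono (F := F) (f := fun j s => En (Gs (φ j)) (y (φ j)) (s * r (φ j)) / r (φ j))
      (by positivity) hFc ?_ ?_ ?_ hε
    · intro j s t hst
      have := hr0 (φ j)
      exact div_le_div_of_nonneg_right ((h (φ j)).En_mono _ (by gcongr)) this.le
    · intro s hs0 e he
      filter_upwards [hdir 0 s e hs0 he, hsub s hs0] with j h1 h2
      rw [hzero, hFd s] at h1
      have h3 : s * r (φ j) = r (φ j) * s := mul_comm _ _
      rw [h3, (h (φ j)).En_dir h2, le_div_iff₀ (hr0 _)]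
      exact h1
    · intro s hs0 e he
      filter_upwards [hup 0 s (e / 2) hs0 (by positivity), hlen 0 s (e / 2) hs0 (by positivity),
        hsub s hs0] with j h1 h2 h3
      rw [hzero, hFd s] at h1
      rw [hzero, hlenH s] at h2
      have h4 : s * r (φ j) = r (φ j) * s := mul_comm _ _
      rw [h4, (h (φ j)).En_dir h3, div_le_iff₀ (hr0 _)]
      have h5 : (μH[1] (K₀ ∩ closedBall 0 s)).toReal = Hn K₀ 0 s := rfl
      rw [h5] at h1
      linarith only [h2, h1]
  -- lengths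
  have hH : ∀ᶠ j in atTop, ∀ s ∈ Icc (1 / R) R,
      |Hn (Ks (φ j)) (y (φ j)) (s * r (φ j)) / r (φ j) - Hn K₀ 0 s| ≤ ε := by
    refine unif_of_mono (F := Hn K₀ 0) (f := fun j s => Hn (Ks (φ j)) (y (φ j)) (s * r (φ j)) / r (φ j))
      (by positivity) hHc.continuousOn ?_ ?_ ?_ hε
    · intro j s t hst
      have := hr0 (φ j)
      exact div_le_div_of_nonneg_right ((h (φ j)).Hn_mono _ (by gcongr)) this.le
    · intro s hs0 e he
      filter_upwards [hlen 0 s e hs0 he] with j h1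
      rw [hzero, hlenH s] at h1
      have h3 : s * r (φ j) = r (φ j) * s := mul_comm _ _
      rw [h3, le_div_iff₀ (hr0 _)]
      exact h1.trans (hlenle _ _ _ _ le_rfl)
    · intro s hs0 e he
      obtain ⟨t, hst, ht⟩ : ∃ t, s < t ∧ Hn K₀ 0 t ≤ Hn K₀ 0 s + e / 4 := by
        have h1 : ∀ᶠ t in 𝓝 s, Hn K₀ 0 t < Hn K₀ 0 s + e / 4 :=
          hHc.continuousAt.eventually (gt_mem_nhds (by linarith))
        have h2 : ∀ᶠ t in 𝓝[>] s, Hn K₀ 0 t < Hn K₀ 0 s + e / 4 :=
          h1.filter_mono nhdsWithin_le_nhds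
        obtain ⟨t, h3, h4⟩ := (h2.and self_mem_nhdsWithin).exists
        exact ⟨t, h4, h3.le⟩
      have ht0 : 0 < t := hs0.trans hst
      filter_upwards [hup 0 t (e / 4) ht0 (by positivity), hdir 0 t (e / 4) ht0 (by positivity)]
        with j h1 h2
      rw [hzero] at h1 h2
      have h3 : s * r (φ j) = r (φ j) * s := mul_comm _ _
      have h4 : r (φ j) * s < r (φ j) * t := by
        have := hr0 (φ j)
        gcongr
      have h5 := hHlt (φ j) (y (φ j)) _ _ h4
      rw [h3, div_le_iff₀ (hr0 _)]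
      have h6 : (μH[1] (K₀ ∩ closedBall 0 t)).toReal = Hn K₀ 0 t := rfl
      rw [h6] at h1
      have h7 : Hn K₀ 0 t * r (φ j) ≤ (Hn K₀ 0 s + e / 4) * r (φ j) := by
        have := hr0 (φ j)
        gcongr
      have h8 := hr0 (φ j)
      (by_contra nlg; linarith only [nlg, mul_nonneg (sub_nonneg.2 ht) (le_of_lt (sub_pos.2 h4)), mul_nonneg (le_of_lt (sub_pos.2 hst)) (sub_nonneg.2 h5), mul_nonneg (le_of_lt (sub_pos.2 hst)) (sub_nonneg.2 h2), mul_nonneg (le_of_lt (sub_pos.2 hst)) (sub_nonneg.2 h1), mul_pos (sub_pos.2 he) (sub_pos.2 h4), mul_pos (sub_pos.2 (not_le.1 nlg)) (sub_pos.2 hst)])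
  -- points of `K` are close to the limit set
  have hA : ∀ᶠ j in atTop, ∀ z ∈ Ks (φ j) ∩ closedBall (y (φ j)) (R * r (φ j)),
      ∃ p ∈ K₀, dist z (y (φ j) + r (φ j) * p) ≤ ε * r (φ j) := by
    have hCc : IsCompact (closedBall (0 : ℂ) R ∩ {p | ε ≤ infDist p K₀}) :=
      (isCompact_closedBall 0 R).inter_right
        (isClosed_le continuous_const (continuous_infDist_pt K₀))
    have hCs : closedBall (0 : ℂ) R ∩ {p | ε ≤ infDist p K₀} ⊆ K₀ᶜ := by
      rintro p ⟨-, hp⟩ hpK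
      have h1 : infDist p K₀ = 0 := infDist_zero_of_mem hpK
      have h2 : ε ≤ infDist p K₀ := hp
      linarith
    filter_upwards [hfar _ hCc hCs] with j hj z hz
    have hrj := hr0 (φ j)
    have hrc : (r (φ j) : ℂ) ≠ 0 := by exact_mod_cast hrj.ne'
    set p : ℂ := (z - y (φ j)) / r (φ j) with hp
    have hzp : y (φ j) + r (φ j) * p = z := by rw [hp]; field_simp; ring
    have hpn : p ∈ closedBall (0 : ℂ) R := by
      rw [mem_closedBall, dist_zero_right, hp, norm_div, Complex.norm_real, Real.norm_eq_abs,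
        abs_of_pos hrj, div_le_iff₀ hrj, ← dist_eq_norm]
      exact mem_closedBall.mp hz.2
    have hpC : ¬ ε ≤ infDist p K₀ := by
      intro hcon'
      exact hj p ⟨hpn, hcon'⟩ (by rw [hzp]; exact hz.1)
    push Not at hpC
    obtain ⟨q, hq, hqd⟩ := (infDist_lt_iff ⟨0, h0⟩).1 hpC
    refine ⟨q, hq, ?_⟩
    have h1 : z - (y (φ j) + r (φ j) * q) = r (φ j) * (p - q) := by
      rw [← hzp]; ring
    rw [dist_eq_norm, h1, norm_mul, Complex.norm_real, Real.norm_eq_abs, abs_of_pos hrj,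
      mul_comm, ← dist_eq_norm]
    gcongr
  -- points of the limit set are close to `K`
  have hB : ∀ᶠ j in atTop, ∀ p ∈ K₀ ∩ closedBall 0 R,
      ∃ z ∈ Ks (φ j), dist z (y (φ j) + r (φ j) * p) ≤ ε * r (φ j) := by
    have hcomp : IsCompact (K₀ ∩ closedBall 0 R) := (isCompact_closedBall 0 R).inter_left hg.closed
    refine hcomp.induction_on (p := fun S => ∀ᶠ j in atTop, ∀ p ∈ S,
      ∃ z ∈ Ks (φ j), dist z (y (φ j) + r (φ j) * p) ≤ ε * r (φ j)) ?_ ?_ ?_ ?_
    · exact Eventually.of_forall fun j s hs => absurd hs (notMem_empty s)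
    · intro S T hST h1
      filter_upwards [h1] with j hj s hs using hj s (hST hs)
    · intro S T hS hT
      filter_upwards [hS, hT] with j h1 h2 s hs
      rcases hs with hs | hs
      · exact h1 s hs
      · exact h2 s hs
    · intro q hq
      refine ⟨ball q (ε / 2), mem_nhdsWithin_of_mem_nhds (ball_mem_nhds q (by positivity)), ?_⟩
      filter_upwards [hnear q hq.1 (ε / 2) (by positivity)] with j hj p hp
      obtain ⟨z, hz, hzd⟩ := hj
      have hrj := hr0 (φ j)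
      refine ⟨z, hz, ?_⟩
      have h1 : dist (y (φ j) + r (φ j) * q) (y (φ j) + r (φ j) * p) ≤ ε / 2 * r (φ j) := by
        rw [dist_eq_norm]
        have e1 : y (φ j) + r (φ j) * q - (y (φ j) + r (φ j) * p) = r (φ j) * (q - p) := by ring
        rw [e1, norm_mul, Complex.norm_real, Real.norm_eq_abs, abs_of_pos hrj, mul_comm,
          ← dist_eq_norm, dist_comm]
        have := (mem_ball.mp hp).le
        gcongr
      have h2 := dist_triangle z (y (φ j) + r (φ j) * q) (y (φ j) + r (φ j) * p)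
      linarith only [h2, h1, hzd]
  obtain ⟨j, h1, h2, h3, h4⟩ := (hE.and (hH.and (hA.and hB))).exists
  refine hbad (φ j) K₀ F hF ⟨h3, fun p hp hpR => h4 p ⟨hp, by simpa using hpR⟩, ?_⟩
  intro s hs1 hs2
  exact ⟨h1 s ⟨hs1, hs2⟩, h2 s ⟨hs1, hs2⟩⟩

end Vale.Agent.P128.Q1
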