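import Vale.Agent.P128.H861.Unif3

/-! The types of the points, with uniform scales. -/

open MeasureTheory Set Metric Filter InnerProductSpace
open scoped ENNReal NNReal ContDiff Topology Real

namespace Vale.Agent.P128.Q1

open Vale.Agent.P128

variable {Ω : Set ℂ} {g u : ℂ → ℝ} {G : ℂ → ℂ} {K : Set ℂ} {M : ℝ} {x₀ : ℂ} {R₀ : ℝ}
  {ρ : ℝ → ℝ → ℝ}

/-- `AllClose` with explicit scales. -/
def ACl (ρ : ℝ → ℝ → ℝ) (G : ℂ → ℂ) (K : Set ℂ) (x₀ : ℂ) (R₀ : ℝ) : Prop :=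
  ∀ R ε : ℝ, 1 ≤ R → 0 < ε → ∀ y ∈ K ∩ closedBall x₀ R₀, ∀ r, 0 < r → r ≤ ρ R ε →
    ∃ L F, IsModel L F ∧ Close G K y r L F R ε

theorem exists_ACl (M R₀ : ℝ) : ∃ ρ : ℝ → ℝ → ℝ, (∀ R ε, 1 ≤ R → 0 < ε → 0 < ρ R ε) ∧
    ∀ (Ω : Set ℂ) (g u : ℂ → ℝ) (G : ℂ → ℂ) (K : Set ℂ) (x₀ : ℂ), MS Ω g u G K M x₀ R₀ →
      ACl ρ G K x₀ R₀ := by
  have h : ∀ R ε : ℝ, ∃ r₀ : ℝ, 1 ≤ R → 0 < ε → 0 < r₀ ∧
      ∀ (Ω : Set ℂ) (g u : ℂ → ℝ) (G : ℂ → ℂ) (K : Set ℂ) (x₀ : ℂ),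
        MS Ω g u G K M x₀ R₀ → ∀ y ∈ K ∩ closedBall x₀ R₀, ∀ r, 0 < r →
          r ≤ r₀ → ∃ L F, IsModel L F ∧ Close G K y r L F R ε := by
    intro R ε
    by_cases hR : 1 ≤ R ∧ 0 < ε
    · obtain ⟨r₀, h1, h2⟩ := close_unif classified (M := M) (R₀ := R₀) hR.1 hR.2
      exact ⟨r₀, fun _ _ => ⟨h1, h2⟩⟩
    · exact ⟨0, fun h1 h2 => absurd ⟨h1, h2⟩ hR⟩
  choose ρ hρ using h
  exact ⟨ρ, fun R ε h1 h2 => (hρ R ε h1 h2).1, fun Ω g u G K x₀ h R ε h1 h2 =>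
    (hρ R ε h1 h2).2 Ω g u G K x₀ h⟩

theorem ACl.allClose (hρ : ∀ R ε, 1 ≤ R → 0 < ε → 0 < ρ R ε) (h : ACl ρ G K x₀ R₀) :
    AllClose G K x₀ R₀ := fun R ε h1 h2 => ⟨ρ R ε, hρ R ε h1 h2, h R ε h1 h2⟩

theorem ACl.tip_up (h : ACl ρ G K x₀ R₀) : ∀ y ∈ K ∩ closedBall x₀ R₀,
    ∀ r, 0 < r → r ≤ ρ 2 (1 / 100) → Hn K y r ≤ 3 / 2 * r → ∀ s, r ≤ s → s ≤ 2 * r → Hn K y s ≤ 8 / 5 * s ∧
      (s = 2 * r → Hn K y s ≤ 3 / 2 * s) := by
  have hcl := h 2 (1 / 100) (by norm_num) (by norm_num)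
  intro y hy r hr hrr hH s hs1 hs2
  obtain ⟨L, F, hmod, hclose⟩ := hcl y hy r hr hrr
  have c1 := abs_le.1 (tyUp_close hclose hr le_rfl (by linarith only [hr] : r ≤ 2 * r))
  rw [div_self hr.ne'] at c1
  have hL1 : Hn L 0 1 ≤ 151 / 100 := by
    by_contra hcon
    have := mul_lt_mul_of_pos_right (not_le.1 hcon) hr
    linarith only [hH, c1.1, this]
  obtain ⟨a, d, ha, hd0, hd, hL, -⟩ := hmod.tip_of one_pos (by linarith only [hL1])
  have c2 := abs_le.1 (tyUp_close hclose hr hs1 hs2)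
  have hσ : 0 ≤ s / r := div_nonneg (hr.le.trans hs1) hr.le
  have hLs : Hn L 0 (s / r) ≤ s / r + 51 / 100 := by
    rw [hL, Hn_rayM ha hd0 hσ]
    have := min_le_right (s / r) d
    linarith only [this, hd, hL1]
  have h5 : Hn L 0 (s / r) * r ≤ s + 51 / 100 * r := by
    have := mul_le_mul_of_nonneg_right hLs hr.le
    rw [add_mul, div_mul_cancel₀ s hr.ne'] at this
    exact this
  refine ⟨by linarith only [h5, c2.2, hs1, hr], fun hs => ?_⟩
  linarith only [h5, c2.2, hs, hr]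

theorem ACl.tri_up (h : ACl ρ G K x₀ R₀) : ∀ y ∈ K ∩ closedBall x₀ R₀,
    ∀ r, 0 < r → r ≤ ρ 2 (1 / 100) → 5 / 2 * r ≤ Hn K y r → ∀ s, r ≤ s → s ≤ 2 * r → 12 / 5 * s ≤ Hn K y s ∧
      (s = 2 * r → 5 / 2 * s ≤ Hn K y s) := by
  have hcl := h 2 (1 / 100) (by norm_num) (by norm_num)
  intro y hy r hr hrr hH s hs1 hs2
  obtain ⟨L, F, hmod, hclose⟩ := hcl y hy r hr hrr
  have c1 := abs_le.1 (tyUp_close hclose hr le_rfl (by linarith only [hr] : r ≤ 2 * r))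
  rw [div_self hr.ne'] at c1
  have hL1 : 249 / 100 ≤ Hn L 0 1 := by
    by_contra hcon
    have := mul_lt_mul_of_pos_right (not_le.1 hcon) hr
    linarith only [hH, c1.2, this]
  obtain ⟨a, b, c, d, hT, hd0, hd, hd3, hL, -⟩ := hmod.tri_of one_pos (by linarith only [hL1])
  have c2 := abs_le.1 (tyUp_close hclose hr hs1 hs2)
  have hσ1 : 1 ≤ s / r := by rw [le_div_iff₀ hr]; linarith only [hs1]
  have hLs : Hn L 0 (s / r) = s / r + Real.sqrt (4 * (s / r) ^ 2 - 3 * d ^ 2) := by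
    rw [hL]
    exact Hn_propM_large hT hd0 (by linarith only [hd, hσ1])
  have hsr : s / r * r = s := div_mul_cancel₀ s hr.ne'
  generalize s / r = σ at *
  have hd3' : 3 * d ^ 2 ≤ 4 - (149 / 100) ^ 2 := by
    nlinarith only [hd3, hL1]
  have hq : ∀ t : ℝ, 0 ≤ t → t ^ 2 ≤ 4 * σ ^ 2 - 3 * d ^ 2 →
      t ≤ Real.sqrt (4 * σ ^ 2 - 3 * d ^ 2) := fun t ht h => Real.le_sqrt_of_sq_le h
  constructor
  · have h6 := hq (7 / 5 * σ + 1 / 100) (by linarith only [hσ1]) (by nlinarith only [hσ1, hd3'])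
    have h7 : (12 / 5 * σ + 1 / 100) * r ≤ Hn L 0 σ * r := by
      apply mul_le_mul_of_nonneg_right _ hr.le
      rw [hLs]; linarith only [h6]
    have h8 : (12 / 5 * σ + 1 / 100) * r = 12 / 5 * s + r / 100 := by
      rw [← hsr]; ring
    linarith only [h7, h8, c2.1]
  · intro hs
    have hσ2 : σ = 2 := by
      have : σ * r = 2 * r := by rw [hsr]; exact hs
      exact mul_right_cancel₀ hr.ne' this
    have h6 := hq (3 + 1 / 100) (by norm_num) (by rw [hσ2]; linarith only [hd3'])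
    have h7 : (5 + 1 / 100) * r ≤ Hn L 0 σ * r := by
      apply mul_le_mul_of_nonneg_right _ hr.le
      rw [hLs]
      linarith only [h6, hσ2]
    linarith only [h7, hs, c2.1]

theorem ACl.mid_down (h : ACl ρ G K x₀ R₀) : ∀ y ∈ K ∩ closedBall x₀ R₀,
    ∀ r, 0 < r → r ≤ ρ 2 (1 / 100) → Mid K y r → ∀ k : ℕ, Mid K y (r / 2 ^ k) := by
  have h1 := h.tip_up
  have h2 := h.tri_up
  intro y hy r hr hrr hM k
  induction k with
  | zero => simpa using hM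
  | succ k ih =>
    have hp : 0 < r / 2 ^ (k + 1) := by positivity
    have he : 2 * (r / 2 ^ (k + 1)) = r / 2 ^ k := by rw [pow_succ]; field_simp
    have hle : r / 2 ^ (k + 1) ≤ r := by
      apply div_le_self hr.le
      exact one_le_pow₀ (by norm_num)
    by_contra hcon
    have hcon' : Hn K y (r / 2 ^ (k + 1)) ≤ 3 / 2 * (r / 2 ^ (k + 1)) ∨
        5 / 2 * (r / 2 ^ (k + 1)) ≤ Hn K y (r / 2 ^ (k + 1)) := by
      by_contra h3
      rw [not_or, not_le, not_le] at h3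
      exact hcon h3
    rcases hcon' with h3 | h3
    · have h4 := (h1 y hy _ hp (hle.trans hrr) h3 (r / 2 ^ k)
        (by rw [← he]; linarith only [hp]) he.ge).2 he.symm
      exact absurd ih.1 (not_lt.2 h4)
    · have h4 := (h2 y hy _ hp (hle.trans hrr) h3 (r / 2 ^ k)
        (by rw [← he]; linarith only [hp]) he.ge).2 he.symm
      exact absurd ih.2 (not_lt.2 h4)

theorem ACl.same (h : ACl ρ G K x₀ R₀) : ∀ y ∈ K ∩ closedBall x₀ R₀, ∀ r₁, 0 < r₁ →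
    r₁ ≤ ρ 2 (1 / 100) → (∀ r, 0 < r → r ≤ r₁ → ¬ Mid K y r) →
    (∀ r, 0 < r → r ≤ r₁ → Hn K y r ≤ 3 / 2 * r) ∨ (∀ r, 0 < r → r ≤ r₁ → 5 / 2 * r ≤ Hn K y r) := by
  have h1 := h.tip_up
  have h2 := h.tri_up
  intro y hy r₁ hr₁ hr₁0 hm
  have hor : ∀ r, 0 < r → r ≤ r₁ → Hn K y r ≤ 3 / 2 * r ∨ 5 / 2 * r ≤ Hn K y r := by
    intro r hr hr1
    have := hm r hr hr1
    unfold Mid at this
    by_contra hcon
    push Not at hcon
    exact this hcon
  by_cases ht : ∃ r, 0 < r ∧ r ≤ r₁ ∧ Hn K y r ≤ 3 / 2 * r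
  · left
    obtain ⟨t, ht0, ht1, ht2⟩ := ht
    intro r hr hr1
    rcases hor r hr hr1 with h3 | h3
    · exact h3
    · exfalso
      rcases le_total t r with h4 | h4
      · obtain ⟨n, hn⟩ := types_pow (s := r) ht0
        have := types_iter_tip (h1 y hy) n t ht0 ht2 r h4 hn
          (hr1.trans hr₁0)
        linarith
      · obtain ⟨n, hn⟩ := types_pow (s := t) hr
        have := types_iter_tri (h2 y hy) n r hr h3 t h4 hn
          (ht1.trans hr₁0)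
        linarith only [this, h4, hr, ht2]
  · right
    push Not at ht
    intro r hr hr1
    rcases hor r hr hr1 with h3 | h3
    · exact absurd h3 (not_le.2 (ht r hr hr1))
    · exact h3

theorem ACl.mid_of_line {ρU : ℝ → ℝ → ℝ} (h : ACl ρU G K x₀ R₀) : ∀ y ∈ K ∩ closedBall x₀ R₀,
    ∀ ρ, 0 < ρ → ρ ≤ ρU 20 (1 / 100) → (∃ e : ℂ, ‖e‖ = 1 ∧
      (∀ z ∈ K ∩ closedBall y (ρ / 2), ∃ t : ℝ, dist z (y + t * e) ≤ ρ / 1000) ∧
      ∀ t : ℝ, |t| ≤ ρ / 2 → ∃ z ∈ K, dist z (y + t * e) ≤ ρ / 1000) → Mid K y (ρ / 40) := by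
  have H := h 20 (1 / 100) (by norm_num) (by norm_num)
  rintro y hy ρ hρ hρ₀ ⟨e, he, h1, h2⟩
  obtain ⟨r, hr⟩ : ∃ r : ℝ, ρ = 40 * r := ⟨ρ / 40, by ring⟩
  have hr0 : 0 < r := by linarith
  have hρr : ρ / 40 = r := by rw [hr]; ring
  obtain ⟨L, F, hm, c1, c2, c3⟩ := H y hy r hr0 (by linarith)
  have hH : Hn L 0 1 = 2 := by
    refine hm.two_of_line he ?_ ?_
    · intro t ht
      have htr : |r * t| ≤ ρ / 2 := by
        rw [abs_mul, abs_of_pos hr0]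
        linarith only [mul_nonneg (le_of_lt (sub_pos.2 hr0)) (sub_nonneg.2 ht), hρr, hr0]
      obtain ⟨z, hz, hzd⟩ := h2 (r * t) htr
      have e1 : y + ((r * t : ℝ) : ℂ) * e = y + (r : ℂ) * ((t : ℂ) * e) := by
        push_cast
        ring
      rw [e1] at hzd
      have hzd' : dist z (y + (r : ℂ) * ((t : ℂ) * e)) ≤ (1 / 25) * r := by
        rw [hr] at hzd
        linarith
      have hzb : z ∈ closedBall y (20 * r) := by
        rw [mem_closedBall]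
        have : dist (y + (r : ℂ) * ((t : ℂ) * e)) y = r * |t| := by
          rw [dist_eq_norm, add_sub_cancel_left, norm_mul, norm_mul, he, Complex.norm_real,
            Complex.norm_real, Real.norm_eq_abs, Real.norm_eq_abs, abs_of_pos hr0, mul_one]
        calc dist z y ≤ dist z (y + (r : ℂ) * ((t : ℂ) * e)) +
              dist (y + (r : ℂ) * ((t : ℂ) * e)) y := dist_triangle _ _ _
          _ ≤ (1 / 25) * r + r * |t| := by rw [this]; linarith only [hzd']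
          _ ≤ 20 * r := by (by_contra nlg; linarith only [nlg, mul_nonneg (le_of_lt (sub_pos.2 hr0)) (sub_nonneg.2 ht), mul_nonneg (mul_self_nonneg (1 : ℝ)) (le_of_lt (sub_pos.2 (not_le.1 nlg))), hr0])
      obtain ⟨p, hp, hpd⟩ := c1 z ⟨hz, hzb⟩
      refine ⟨p, hp, ?_⟩
      have := tyAway_scale hr0 hpd hzd'
      linarith only [this]
    · intro p hp hpn
      obtain ⟨z, hz, hzd⟩ := c2 p hp (by linarith)
      have hzb : z ∈ closedBall y (ρ / 2) := by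
        rw [mem_closedBall]
        have : dist (y + (r : ℂ) * p) y = r * ‖p‖ := by
          rw [dist_eq_norm, add_sub_cancel_left, norm_mul, Complex.norm_real,
            Real.norm_eq_abs, abs_of_pos hr0]
        calc dist z y ≤ dist z (y + (r : ℂ) * p) + dist (y + (r : ℂ) * p) y :=
              dist_triangle _ _ _
          _ ≤ (1 / 100) * r + r * ‖p‖ := by rw [this]; linarith
          _ ≤ ρ / 2 := by (by_contra nlg; linarith only [nlg, mul_nonneg (le_of_lt (sub_pos.2 hr0)) (sub_nonneg.2 hpn), mul_eq_zero_of_left (sub_eq_zero.2 hρr) (0 - (0 - 1 * 1)), mul_nonneg (mul_self_nonneg (1 : ℝ)) (le_of_lt (sub_pos.2 (not_le.1 nlg))), hr0])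
      obtain ⟨t, ht⟩ := h1 z ⟨hz, hzb⟩
      refine ⟨t / r, ?_⟩
      have e1 : y + (t : ℂ) * e = y + (r : ℂ) * (((t / r : ℝ) : ℂ) * e) := by
        have hrc : (r : ℂ) ≠ 0 := by exact_mod_cast hr0.ne'
        push_cast
        field_simp
      rw [e1] at ht
      have ht' : dist z (y + (r : ℂ) * (((t / r : ℝ) : ℂ) * e)) ≤ (1 / 25) * r := by
        rw [hr] at ht
        linarith only [ht]
      have := tyAway_scale hr0 hzd ht'
      linarith only [this]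
  obtain ⟨-, c4⟩ := c3 1 (by norm_num) (by norm_num)
  rw [one_mul, hH, abs_le] at c4
  obtain ⟨c5, c6⟩ := c4
  rw [hρr]
  have h5 : (199 / 100) * r ≤ Hn K y r := by
    have : 199 / 100 ≤ Hn K y r / r := by linarith only [c5]
    rwa [le_div_iff₀ hr0] at this
  have h6 : Hn K y r ≤ (201 / 100) * r := by
    have : Hn K y r / r ≤ 201 / 100 := by linarith only [c6]
    rwa [div_le_iff₀ hr0] at this
  constructor <;> linarith

theorem away_of_ray_unif {x : ℂ} {r₁ : ℝ}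
    (h : ∀ r, 0 < r → r ≤ r₁ → NearRay K x r (1 / 10000)) :
    ∀ y ∈ K ∩ closedBall x (r₁ / 2), y ≠ x → ∃ e : ℂ, ‖e‖ = 1 ∧
      (∀ z ∈ K ∩ closedBall y (dist y x / 2), ∃ t : ℝ, dist z (y + t * e) ≤ dist y x / 1000) ∧
      ∀ t : ℝ, |t| ≤ dist y x / 2 → ∃ z ∈ K, dist z (y + t * e) ≤ dist y x / 1000 := by
  rintro y ⟨hyK, hyb⟩ hne
  have hρ : 0 < dist y x := dist_pos.2 hne
  rw [mem_closedBall] at hyb
  obtain ⟨w, hw, h1, h2⟩ := h (2 * dist y x) (by positivity) (by linarith)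
  obtain ⟨τ, ⟨hτ0, hτ1⟩, hτ⟩ := h1 y ⟨hyK, by rw [mem_closedBall]; linarith⟩
  refine ⟨w, hw, ?_, ?_⟩
  · rintro z ⟨hzK, hzb⟩
    rw [mem_closedBall] at hzb
    obtain ⟨σ, -, hσ⟩ := h1 z ⟨hzK, by
      rw [mem_closedBall]
      have := dist_triangle z y x
      linarith⟩
    exact ⟨σ - τ, tyRay_shift rfl hτ hσ hρ.le⟩
  · intro t ht
    have h3 : dist (x + τ • w) x = τ := by
      rw [dist_eq_norm, add_sub_cancel_left, norm_smul, hw, mul_one, Real.norm_eq_abs,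
        abs_of_nonneg hτ0]
    have h4 := dist_triangle y (x + τ • w) x
    have h5 := dist_triangle (x + τ • w) y x
    rw [dist_comm (x + τ • w) y] at h5
    rw [h3] at h4 h5
    have ht' := abs_le.1 ht
    obtain ⟨z, hzK, hz⟩ := h2 (τ + t) ⟨by linarith only [ht'.1, h4, hτ, hρ], by linarith [ht'.2]⟩
    exact ⟨z, hzK, tyRay_shift (by ring) hτ hz hρ.le⟩

theorem away_of_tripod_unif {x : ℂ} {r₁ : ℝ}
    (h : ∀ r, 0 < r → r ≤ r₁ → NearTripod K x r (1 / 10000)) :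
    ∀ y ∈ K ∩ closedBall x (r₁ / 2), y ≠ x → ∃ e : ℂ, ‖e‖ = 1 ∧
      (∀ z ∈ K ∩ closedBall y (dist y x / 2), ∃ t : ℝ, dist z (y + t * e) ≤ dist y x / 1000) ∧
      ∀ t : ℝ, |t| ≤ dist y x / 2 → ∃ z ∈ K, dist z (y + t * e) ≤ dist y x / 1000 := by
  rintro y ⟨hyK, hyb⟩ hyx
  have hρ : 0 < dist y x := dist_pos.2 hyx
  have hρ2 : dist y x ≤ r₁ / 2 := mem_closedBall.1 hyb
  obtain ⟨w, hw, hA, hB⟩ := h (2 * dist y x) (by positivity) (by linarith only [hρ2])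
  set ρ := dist y x with hρdef
  obtain ⟨k, ρ', ⟨hρ'0, hρ'2⟩, hyk⟩ := hA y ⟨hyK, mem_closedBall.2 (by linarith only [hρ])⟩
  set v : ℕ → ℂ := fun j => w * Complex.exp (2 * Real.pi / 3 * Complex.I) ^ j with hv
  have hvn : ∀ j, ‖v j‖ = 1 := fun j => by simp only [hv]; rw [norm_mul, hw, tyPod_om_norm, one_mul]
  have hyk' : dist y (x + ρ' • v k) ≤ ρ / 5000 := by
    refine hyk.trans (le_of_eq ?_); ring
  have hd : dist x (x + ρ' • v k) = ρ' := by
    rw [dist_eq_norm]; simp [hvn, abs_of_nonneg hρ'0]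
  have h1 : ρ ≤ ρ' + ρ / 5000 := by
    calc ρ = dist y x := rfl
      _ ≤ dist y (x + ρ' • v k) + dist (x + ρ' • v k) x := dist_triangle _ _ _
      _ ≤ ρ / 5000 + ρ' := by rw [dist_comm (x + ρ' • v k) x, hd]; linarith only [hyk']
      _ = ρ' + ρ / 5000 := by ring
  have h2 : ρ' ≤ ρ + ρ / 5000 := by
    calc ρ' = dist x (x + ρ' • v k) := hd.symm
      _ ≤ dist x y + dist y (x + ρ' • v k) := dist_triangle _ _ _
      _ ≤ ρ + ρ / 5000 := by rw [dist_comm x y]; linarith only [hyk']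
  refine ⟨v k, hvn k, ?_, ?_⟩
  · rintro z ⟨hzK, hzb⟩
    have hzy : dist z y ≤ ρ / 2 := mem_closedBall.1 hzb
    obtain ⟨j, σ, ⟨hσ0, hσ2⟩, hzj⟩ := hA z ⟨hzK, mem_closedBall.2 (by
      have := dist_triangle z y x
      linarith only [this, hzy, hρ])⟩
    have hzj' : dist z (x + σ • v j) ≤ ρ / 5000 := by
      refine hzj.trans (le_of_eq ?_); ring
    have hvv : ‖σ • v j - ρ' • v k‖ ≤ ρ / 2 + ρ / 5000 + ρ / 5000 := by
      have e1 : ‖σ • v j - ρ' • v k‖ = dist (x + σ • v j) (x + ρ' • v k) := by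
        rw [dist_eq_norm]; congr 1; ring
      rw [e1]
      have t1 := dist_triangle (x + σ • v j) z (x + ρ' • v k)
      have t2 := dist_triangle z y (x + ρ' • v k)
      rw [dist_comm (x + σ • v j) z] at t1
      linarith only [t2, t1, hzj', hzy, hyk']
    have hjk : Complex.exp (2 * Real.pi / 3 * Complex.I) ^ j =
        Complex.exp (2 * Real.pi / 3 * Complex.I) ^ k := by
      rcases tyPod_sep w hw j k hσ0 hρ'0 with hh | hh
      · exact hh
      · exfalso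
        have : ρ' ≤ ρ / 2 + ρ / 5000 + ρ / 5000 := hh.trans hvv
        linarith only [this, h1, hρ]
    have hvjk : v j = v k := by simp only [hv, hjk]
    refine ⟨σ - ρ', ?_⟩
    have e2 : dist (x + σ • v j) (y + ((σ - ρ' : ℝ) : ℂ) * v k) = dist y (x + ρ' • v k) := by
      rw [dist_comm, dist_eq_norm, dist_eq_norm, hvjk]
      congr 1
      simp only [Complex.real_smul]; push_cast; ring
    calc dist z (y + ((σ - ρ' : ℝ) : ℂ) * v k)
        ≤ dist z (x + σ • v j) + dist (x + σ • v j) (y + ((σ - ρ' : ℝ) : ℂ) * v k) :=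
          dist_triangle _ _ _
      _ ≤ ρ / 5000 + ρ / 5000 := by rw [e2]; linarith only [hzj', hyk']
      _ ≤ ρ / 1000 := by linarith only [hρ]
  · intro t ht
    have ht' := abs_le.1 ht
    obtain ⟨z, hzK, hz⟩ := hB k (ρ' + t) ⟨by linarith only [ht'.1, h1, hρ], by linarith only [ht'.2, h2, hρ]⟩
    refine ⟨z, hzK, ?_⟩
    have hz' : dist z (x + (ρ' + t) • v k) ≤ ρ / 5000 := by
      refine hz.trans (le_of_eq ?_); ring
    have e2 : dist (x + (ρ' + t) • v k) (y + (t : ℂ) * v k) = dist y (x + ρ' • v k) := by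
      rw [dist_comm, dist_eq_norm, dist_eq_norm]
      congr 1
      simp only [Complex.real_smul]; push_cast; ring
    calc dist z (y + (t : ℂ) * v k)
        ≤ dist z (x + (ρ' + t) • v k) + dist (x + (ρ' + t) • v k) (y + (t : ℂ) * v k) :=
          dist_triangle _ _ _
      _ ≤ ρ / 5000 + ρ / 5000 := by rw [e2]; linarith only [hz', hyk']
      _ ≤ ρ / 1000 := by linarith only [hρ]

theorem ACl.tip_lim (h : ACl ρ G K x₀ R₀) {x : ℂ} (hx : x ∈ K ∩ ball x₀ R₀) {r₁ : ℝ}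
    (ht : ∀ r, 0 < r → r ≤ r₁ → Hn K x r ≤ 3 / 2 * r) {δ : ℝ} (hδ : 0 < δ) :
    ∀ r, 0 < r → r ≤ min r₁ (ρ (max 1 (4 / δ)) (min (δ / 4) (1 / (100 * max 1 (4 / δ))))) →
      NearRay K x r δ ∧ |En G x r - r| ≤ δ * r ∧ |Hn K x r - r| ≤ δ * r := by
  set R : ℝ := max 1 (4 / δ) with hR
  have hR1 : 1 ≤ R := le_max_left _ _
  have hR0 : 0 < R := lt_of_lt_of_le one_pos hR1
  have hRδ : 1 / R ≤ δ / 4 := by
    rw [div_le_iff₀ hR0]
    have h1 : 4 / δ ≤ R := le_max_right _ _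
    rw [div_le_iff₀ hδ] at h1
    linarith only [h1]
  set ε : ℝ := min (δ / 4) (1 / (100 * R)) with hε
  have hε0 : 0 < ε := lt_min (by positivity) (by positivity)
  have hε1 : ε ≤ δ / 4 := min_le_left _ _
  have hε2 : ε ≤ 1 / (100 * R) := min_le_right _ _
  have hcl := h R ε hR1 hε0
  intro r hr hrr
  have hrr1 : r ≤ r₁ := le_trans hrr (min_le_left _ _)
  have hrr0 : r ≤ ρ R ε := le_trans hrr (min_le_right _ _)
  obtain ⟨L, F, hmod, hc1, hc2, hc3⟩ := hcl x ⟨hx.1, ball_subset_closedBall hx.2⟩ r hr hrr0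
  have hRinv : 0 < 1 / R := by positivity
  have hRinv1 : 1 / R ≤ 1 := by rw [div_le_one hR0]; exact hR1
  -- length at the small scale
  have hlen : Hn L 0 (1 / R) ≤ 8 / 5 * (1 / R) := by
    have h1 := (hc3 (1 / R) le_rfl (le_trans hRinv1 hR1)).2
    have h2 := ht (1 / R * r) (by positivity) (by (by_contra nlg; linarith only [nlg, mul_nonneg (sub_nonneg.2 hrr1) (sub_nonneg.2 hRinv1), mul_nonneg (sub_nonneg.2 hrr1) (le_of_lt (sub_pos.2 hRinv)), mul_nonneg (le_of_lt (sub_pos.2 hr)) (sub_nonneg.2 hRinv1), mul_nonneg (le_of_lt (sub_pos.2 (not_le.1 nlg))) (sub_nonneg.2 hRinv1), mul_pos (sub_pos.2 (not_le.1 nlg)) (sub_pos.2 hRinv)]))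
    have h3 : Hn K x (1 / R * r) / r ≤ 3 / 2 * (1 / R) := by
      rw [div_le_iff₀ hr]; linarith only [h2]
    have h4 := (abs_le.mp h1).1
    have h5 : 1 / (100 * R) = 1 / 100 * (1 / R) := by field_simp
    rw [h5] at hε2
    linarith only [h4, h3, hε2, hε0]
  obtain ⟨a, d, ha, hd0, hd, hL, hF⟩ := hmod.tip_of hRinv hlen
  have hdR : d ≤ 3 / 5 * (1 / R) := by linarith only [hd, hlen]
  have hdδ : d ≤ δ / 4 := by linarith only [hdR, hε1, hε0, hRδ]
  have hd1 : d ≤ 1 := by linarith only [hdR, hRinv1]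
  subst hL
  have h1 := hc3 1 hRinv1 hR1
  rw [one_mul, Hn_rayM ha hd0 zero_le_one, min_eq_right hd1, hF 1] at h1
  have h2 := tipEn_near ha hd0 hd1
  refine ⟨tyTip_nearRay ha hr hd0 hR1 hε0 (by linarith only [hd, hlen, hε1, hε0, hRδ]) hc1 hc2, ?_, ?_⟩
  · have h3 : |En G x r / r - 1| ≤ δ := by
      have := abs_add_le (En G x r / r - tipEn a d 1) (tipEn a d 1 - 1)
      rw [sub_add_sub_cancel] at this
      linarith only [h1.1, this, h2, hd, hlen, hε1, hε0, hRδ]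
    have h4 : En G x r - r = (En G x r / r - 1) * r := by field_simp
    rw [h4, abs_mul, abs_of_pos hr]
    exact mul_le_mul_of_nonneg_right h3 hr.le
  · have h3 : |Hn K x r / r - 1| ≤ δ := by
      have := abs_add_le (Hn K x r / r - (1 + d)) d
      have e : Hn K x r / r - (1 + d) + d = Hn K x r / r - 1 := by ring
      rw [e, abs_of_nonneg hd0] at this
      linarith only [h1.2, this, hd, hlen, hε1, hε0, hRδ]
    have h4 : Hn K x r - r = (Hn K x r / r - 1) * r := by field_simp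
    rw [h4, abs_mul, abs_of_pos hr]
    exact mul_le_mul_of_nonneg_right h3 hr.le

theorem ACl.tri_lim (h : ACl ρ G K x₀ R₀) {x : ℂ} (hx : x ∈ K ∩ ball x₀ R₀) {r₁ : ℝ}
    (ht : ∀ r, 0 < r → r ≤ r₁ → 5 / 2 * r ≤ Hn K x r) {δ : ℝ} (hδ : 0 < δ) :
    ∀ r, 0 < r → r ≤ min (ρ (2 + 4 / δ) (min (δ / 4) (1 / (2 + 4 / δ) / 10))) r₁ →
      NearTripod K x r δ ∧ En G x r ≤ δ * r ∧ |Hn K x r - 3 * r| ≤ δ * r := by
  obtain ⟨R, hRdef, hR2, hRδ⟩ : ∃ R : ℝ, R = 2 + 4 / δ ∧ 2 ≤ R ∧ 1 / R ≤ δ / 4 := by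
    have h4 : 0 < 4 / δ := by positivity
    refine ⟨2 + 4 / δ, rfl, by linarith, ?_⟩
    rw [div_le_div_iff₀ (by linarith only [h4]) (by norm_num)]
    have : δ * (4 / δ) = 4 := by field_simp
    linarith only [this, hδ]
  have hR0 : 0 < R := by linarith
  obtain ⟨ε, hεdef, hε0, hε1, hε2⟩ : ∃ ε : ℝ, ε = min (δ / 4) (1 / R / 10) ∧ 0 < ε ∧ ε ≤ δ / 4 ∧
      ε ≤ 1 / R / 10 :=
    ⟨min (δ / 4) (1 / R / 10), rfl, lt_min (by positivity) (by positivity), min_le_left _ _,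
      min_le_right _ _⟩
  have hc := h R ε (by linarith) hε0
  rw [← hRdef, ← hεdef]
  intro r hr hrr
  obtain ⟨L, F, hL, hC1, hC2, hC3⟩ := hc x ⟨hx.1, ball_subset_closedBall hx.2⟩ r hr
    (hrr.trans (min_le_left _ _))
  have hs0 : 0 < 1 / R := by positivity
  have hs1 : 1 / R ≤ 1 / 2 := one_div_le_one_div_of_le (by norm_num) hR2
  have hh := (hC3 (1 / R) le_rfl (by linarith only [hs1, hε2, hε0, hR2])).2
  have hsr : 1 / R * r ≤ r₁ := by
    have h1 : 1 / R * r ≤ 1 * r := by gcongr; linarith only [hs1, hε2, hε0]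
    have h2 := hrr.trans (min_le_right _ _)
    linarith only [h2, h1]
  have ht1 := ht (1 / R * r) (by positivity) hsr
  have h5 : 5 / 2 * (1 / R) ≤ Hn K x (1 / R * r) / r := by
    rw [le_div_iff₀ hr]; linarith only [ht1]
  have h6 : 12 / 5 * (1 / R) ≤ Hn L 0 (1 / R) := by
    have := (abs_le.mp hh).2
    linarith only [this, h5, hε2]
  obtain ⟨a, b, c, d, hT, hd0, hd1, -, rfl, hF⟩ := hL.tri_of hs0 h6
  have hdR : d ≤ 1 / R := by linarith only [hd1, hε2, hε0]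
  have hdδ : d ≤ δ / 4 := hdR.trans hRδ
  have hd2 : d ≤ 1 / 2 := hdR.trans hs1
  obtain ⟨hE, hH⟩ := hC3 1 (by linarith only [hs1, hε2, hε0]) (by linarith only [hs1, hε2, hε0, hR2])
  rw [one_mul, hF, sub_zero] at hE
  rw [one_mul, Hn_propM_large hT hd0 (by linarith only [hd1, hs1, hε2, hε0])] at hH
  have q1 : 2 - 3 / 2 * d ≤ Real.sqrt (4 * 1 ^ 2 - 3 * d ^ 2) := by
    refine Real.le_sqrt_of_sq_le ?_
    (by_contra nlg; linarith only [nlg, mul_nonneg (sub_nonneg.2 hd0) (sub_nonneg.2 hd2), mul_nonneg (sub_nonneg.2 hd0) (sub_nonneg.2 hd0), mul_nonneg (le_of_lt (sub_pos.2 (not_le.1 nlg))) (sub_nonneg.2 hs1), mul_pos (sub_pos.2 (not_le.1 nlg)) (sub_pos.2 hs0)])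
  have q2 : Real.sqrt (4 * 1 ^ 2 - 3 * d ^ 2) ≤ 2 := by
    rw [Real.sqrt_le_left (by norm_num)]
    linarith only [sq_nonneg d]
  generalize Real.sqrt (4 * 1 ^ 2 - 3 * d ^ 2) = q at hH q1 q2
  refine ⟨tyTri_near hT hd0 (by linarith only [hs1, hε2, hε0, hR2]) (by linarith only [hd1, hs1, hε2, hε0, hR2]) hε0 (by linarith only [hd1, hε2, hε0, hRδ]) hr hC1 hC2, ?_, ?_⟩
  · have h7 : En G x r / r ≤ δ := (abs_le.mp hE).2.trans (by linarith only [hε2, hε0, hRδ])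
    rwa [div_le_iff₀ hr] at h7
  · obtain ⟨h8, h8'⟩ := abs_le.mp hH
    have h9 : |Hn K x r / r - 3| ≤ δ :=
      abs_le.mpr ⟨by linarith only [h8, q1, hdδ, hε1, hδ, hd0], by linarith only [h8', q2, hε1, hδ]⟩
    have e : Hn K x r - 3 * r = (Hn K x r / r - 3) * r := by field_simp
    rw [e, abs_mul, abs_of_pos hr]
    gcongr

end Vale.Agent.P128.Q1
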